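import Vale.Agent.P313.BundleTS

/-!
Block E4: a function in `LF` with a padding search is decided by a deterministic machine.
-/

namespace Vale.Agent.P313.TS

/-- Functions in `LF` and a search for the padding: deterministic machine with space logarithmic
in the padding. -/
theorem pad_machine {F g : P313.Fn 1} (hF : P313.LF F) (hg : P313.LF g) :
    ∃ (D : RTM) (e : ℕ), D.Deterministic ∧ ∀ (x : List Bool) (B : ℕ),
      (∀ m < B, g x (fun _ => m) = 0) → g x (fun _ => B) ≠ 0 →
      ∀ ω : ℕ → Bool,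
      (∀ T, (x.length + B + 2) ^ e ≤ T → D.verdict (D.run x ω T).state =
        some (decide (F x (fun _ => B) ≠ 0))) ∧
      ∀ t i, ((D.run x ω t).work i).cells ≤ e * Nat.log 2 (x.length + B + 2) + e := by
  obtain ⟨D, e, hD, h⟩ := bit_machine (g0 := fun I a => g I.word a) (Hf := fun _ _ => 0)
    (Sf := fun _ _ => 0) (fin := fun I a => F I.word a) (ff := fun _ _ => 0)
    (pf := fun _ _ => 0) (LF.ofOld hg) LF.zero LF.zero (LF.ofOld hF) LF.zero LF.zero
  refine ⟨D, e, hD, fun x B h1 h2 ω => ?_⟩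
  obtain ⟨h3, h4⟩ := h x B h1 h2 (fun s hs => absurd hs (Nat.not_lt_zero s)) ω
  exact ⟨fun T hT => h3 T hT, fun t i => (h4 t i).trans (by omega)⟩

/-- The same in terms of `Decides`: if the padding is found at most at `W n`, with
`log (n + W n + 2) ≤ c * S n + c`, the language is decided in space `O(S)`. -/
theorem pad_decides {F g : P313.Fn 1} (hF : P313.LF F) (hg : P313.LF g) {A : Set (List Bool)}
    {S : ℕ → ℕ} {c : ℕ}
    (hA : ∀ x : List Bool, ∃ B : ℕ, (∀ m < B, g x (fun _ => m) = 0) ∧ g x (fun _ => B) ≠ 0 ∧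
      Nat.log 2 (x.length + B + 2) ≤ c * S x.length + c ∧
      (F x (fun _ => B) ≠ 0 ↔ x ∈ A)) :
    ∃ (D : RTM) (e : ℕ), D.Decides A (fun n => 2 ^ (e * S n + e)) (fun n => e * S n + e) := by
  obtain ⟨D, e, hD, h⟩ := pad_machine hF hg
  refine ⟨D, e * (c + 1) + e * (c + 1), hD, fun x ω => ?_⟩
  obtain ⟨B, h1, h2, h3, h4⟩ := hA x
  obtain ⟨h5, h6⟩ := h x B h1 h2 ω
  have hlt : x.length + B + 2 < 2 ^ (Nat.log 2 (x.length + B + 2) + 1) :=
    Nat.lt_pow_succ_log_self (by norm_num) _
  have hT : (x.length + B + 2) ^ e ≤ 2 ^ ((e * (c + 1) + e * (c + 1)) * S x.length +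
      (e * (c + 1) + e * (c + 1))) := by
    calc (x.length + B + 2) ^ e ≤ (2 ^ (Nat.log 2 (x.length + B + 2) + 1)) ^ e :=
          Nat.pow_le_pow_left hlt.le e
      _ = 2 ^ ((Nat.log 2 (x.length + B + 2) + 1) * e) := (pow_mul _ _ _).symm
      _ ≤ 2 ^ ((e * (c + 1) + e * (c + 1)) * S x.length + (e * (c + 1) + e * (c + 1))) := by
          apply Nat.pow_le_pow_right (by norm_num)
          have h7 : (Nat.log 2 (x.length + B + 2) + 1) * e ≤ (c * S x.length + c + 1) * e :=
            Nat.mul_le_mul_right _ (by omega)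
          have h8 : (c * S x.length + c + 1) * e ≤ (e * (c + 1) + e * (c + 1)) * S x.length +
              (e * (c + 1) + e * (c + 1)) := by nlinarith
          exact h7.trans h8
  refine ⟨fun t ht => ?_, fun t i => ?_⟩
  · have ht' : (x.length + B + 2) ^ e ≤ t := by
      refine hT.trans ?_
      have : ((2 ^ ((e * (c + 1) + e * (c + 1)) * S x.length +
        (e * (c + 1) + e * (c + 1))) : ℕ) : ℝ) ≤ (t : ℝ) := by
        refine le_trans (le_of_eq ?_) ht
        push_cast
        rfl
      exact_mod_cast this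
    rw [h5 t ht']
    constructor
    · intro hx
      simp [h4.2 hx]
    · intro hx
      have : ¬ F x (fun _ => B) ≠ 0 := fun hF' => hx (h4.1 hF')
      simp [this]
  · have h9 := h6 t i
    have h10 : e * Nat.log 2 (x.length + B + 2) + e ≤ (e * (c + 1) + e * (c + 1)) * S x.length +
        (e * (c + 1) + e * (c + 1)) := by
      have h7 : e * Nat.log 2 (x.length + B + 2) ≤ e * (c * S x.length + c) :=
        Nat.mul_le_mul_left _ h3
      nlinarith
    have h11 : (((D.run x ω t).work i).cells : ℝ) ≤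
        (((e * (c + 1) + e * (c + 1)) * S x.length + (e * (c + 1) + e * (c + 1)) : ℕ) : ℝ) := by
      exact_mod_cast h9.trans h10
    refine h11.trans (le_of_eq ?_)
    push_cast
    ring

end Vale.Agent.P313.TS
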