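import Vale.Agent.P313.BundleTS

/-!
The chain of a randomized machine: two absorbing states `0` (accept), `1` (reject), one coin per
step, all states below `n - 1`.
-/

namespace Vale.Agent.P313.CT

open Finset Sel

/-- The probability to be in `w` after `t` coins. -/
noncomputable def hitR (cs : ℕ → Bool → ℕ) (w : ℕ) : ℕ → ℕ → ℝ
  | 0, v => if v = w then 1 else 0
  | t + 1, v => (hitR cs w t (cs v false) + hitR cs w t (cs v true)) / 2

theorem hitR_eq (cs : ℕ → Bool → ℕ) (w : ℕ) : ∀ t v, hitR cs w t v = ((hit cs w t v : ℚ) : ℝ) := by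
  intro t
  induction t with
  | zero => intro v; simp only [hitR, hit]; split_ifs <;> simp
  | succ t ih => intro v; simp only [hitR, hit]; rw [ih, ih]; push_cast; ring

/-- What is needed about the chain. -/
structure Chn (cs : ℕ → Bool → ℕ) (n T s : ℕ) : Prop where
  three_le : 3 ≤ n
  start_lt : s + 1 < n
  closed : ∀ v, v + 1 < n → ∀ b, cs v b + 1 < n
  fix0 : ∀ b, cs 0 b = 0
  fix1 : ∀ b, cs 1 b = 1
  total : hitR cs 0 T s + hitR cs 1 T s = 1

theorem total_of_halts {cs : ℕ → Bool → ℕ} {s R : ℕ} (h : Halts cs s R 0 1) :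
    hitR cs 0 R s + hitR cs 1 R s = 1 := by
  rw [hitR_eq, hitR_eq]
  have h1 : hit cs 0 R s + hit cs 1 R s = 1 := by
    rw [hit_eq_cnt, hit_eq_cnt, ← add_div, div_eq_one_iff_eq (by positivity)]
    have h2 : cnt cs R s 0 + cnt cs R s 1 = 2 ^ R := by
      unfold cnt
      rw [← card_union_of_disjoint]
      · rw [← filter_or, filter_true_of_mem, card_range]
        intro z hz
        exact h.2.2 z (mem_range.1 hz)
      · rw [disjoint_filter]
        intro z _ h3 h4
        omega
    exact_mod_cast h2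
  exact_mod_cast h1

variable {M : RTM} {c : ℕ}

/-- The chain of a machine. -/
theorem chain_ok (hM : M.Bounded (fun n => (n + 2) ^ c) (fun n => c * Nat.log 2 (n + 2)))
    (x : List Bool) {n : ℕ} (hn : sW M c x ^ M.nd + 3 ≤ n) :
    Chn (M.cs x (sW M c x) (sT c x)) n (sT c x) (M.startN x (sW M c x) (sT c x)) := by
  have hF : M.Fit x (sW M c x) (sT c x) := fit hM (fun n => Nat.le_add_right _ _) x
  refine ⟨by omega, ?_, fun v hv b => ?_, fun b => RTM.cs_fix x _ _ (by omega) b,
    fun b => RTM.cs_fix x _ _ (by omega) b, ?_⟩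
  · rw [RTM.start_eq]
    have := RTM.cod_lt hF (RTM.rch_init (M := M) x)
    omega
  · unfold RTM.cs RTM.csN RTM.clp
    split_ifs <;> omega
  · exact total_of_halts (RTM.chain_halts hF (G.coins_le' x _ _))

/-- The probability of acceptance. -/
theorem chain_prob (hM : M.Bounded (fun n => (n + 2) ^ c) (fun n => c * Nat.log 2 (n + 2)))
    (x : List Bool) :
    hitR (M.cs x (sW M c x) (sT c x)) 0 (sT c x) (M.startN x (sW M c x) (sT c x)) =
      ((M.probAt x true ((x.length + 2) ^ c) 0 M.init : ℚ) : ℝ) := by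
  have hF : M.Fit x (sW M c x) (sT c x) := fit hM (fun n => Nat.le_add_right _ _) x
  have h := RTM.probAt_eq_hitC hF true (sT c x) 0 M.init (by omega) (RTM.rch_init (M := M) x)
    (sT c x) le_rfl 0
  rw [hitC_zero] at h
  rw [hitR_eq, RTM.start_eq]
  have h2 : M.probAt x true ((x.length + 2) ^ c) 0 M.init =
      hit (M.cs x (sW M c x) (sT c x)) 0 (sT c x) (M.cod x (sW M c x) (sT c x) M.init) := h
  rw [h2]

/-- The successor function is in `LF`. -/
theorem lf_cs (M : RTM) (c : ℕ) {k : ℕ} {v b : P313.Fn k} (hv : P313.LF v) (hb : P313.LF b) :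
    P313.LF (fun x a => M.csN x (sW M c x) (sT c x) (v x a) (b x a)) :=
  M.lf_csN (lfx_W.lf k) (lfx_T.lf k) hv hb

/-- The successor function is in `TS.LF`. -/
theorem lf_cs_ts (M : RTM) (c : ℕ) {k : ℕ} {v b : TS.Fn k} (hv : TS.LF v) (hb : TS.LF b) :
    TS.LF (fun I a => M.csN I.word (sW M c I.word) (sT c I.word) (v I a) (b I a)) := by
  have h1 : TS.LF (fun I a => M.csN I.word (sW M c I.word) (sT c I.word) (a 0) (a 1) :
      TS.Fn 2) := TS.LF.ofOld (f := fun x a => M.csN x (sW M c x) (sT c x) (a 0) (a 1))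
    (lf_cs M c (LF.proj 0) (LF.proj 1))
  have h2 := TS.LF.comp (k := k) (m := 2)
    (f := fun I a => M.csN I.word (sW M c I.word) (sT c I.word) (a 0) (a 1))
    (g := ![v, b]) h1 (fun i => by
      refine Fin.cases ?_ (fun j => ?_) i
      · exact hv
      · refine Fin.cases ?_ (fun j => ?_) j
        · exact hb
        · exact j.elim0)
  exact h2

/-- The start of the chain is in `LF`. -/
theorem lfx_start (M : RTM) (c : ℕ) : LFx (fun x => M.startN x (sW M c x) (sT c x)) :=
  M.lf_startN (lfx_W.lf 0) (lfx_T.lf 0)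

end Vale.Agent.P313.CT
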