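import Vale.Agent.P313.CT.Low

/-!
Numbers as sequences of digits.
-/

namespace Vale.Agent.P313.CT

open Finset

/-- Digit `i` of `S` in base `P`. -/
def fld (P S i : ℕ) : ℕ := S / P ^ i % P

/-- Change of digit `i`. -/
def updN (P S i v : ℕ) : ℕ := S - fld P S i * P ^ i + v * P ^ i

/-- The number with digits `g 0, ..., g (n - 1)`. -/
def pk (P : ℕ) (g : ℕ → ℕ) (n : ℕ) : ℕ := ∑ i ∈ range n, g i * P ^ i

theorem pk_zero (P : ℕ) (g : ℕ → ℕ) : pk P g 0 = 0 := by simp [pk]

theorem pk_succ (P : ℕ) (g : ℕ → ℕ) (n : ℕ) : pk P g (n + 1) = pk P g n + g n * P ^ n := by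
  simp [pk, sum_range_succ]

theorem pk_congr {P : ℕ} {g h : ℕ → ℕ} {n : ℕ} (e : ∀ i < n, g i = h i) : pk P g n = pk P h n :=
  sum_congr rfl (fun i hi => by rw [e i (mem_range.1 hi)])

theorem pk_lt {P : ℕ} {g : ℕ → ℕ} {n : ℕ} (h : ∀ i < n, g i < P) : pk P g n < P ^ n := by
  induction n with
  | zero => simp [pk]
  | succ n ih =>
    rw [pk_succ]
    have h1 := ih (fun i hi => h i (by omega))
    have h2 : g n + 1 ≤ P := h n (by omega)
    calc pk P g n + g n * P ^ n < P ^ n + g n * P ^ n := Nat.add_lt_add_right h1 _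
      _ = (g n + 1) * P ^ n := by ring
      _ ≤ P * P ^ n := Nat.mul_le_mul_right _ h2
      _ = P ^ (n + 1) := by ring

theorem pk_add (P : ℕ) (g : ℕ → ℕ) (i m : ℕ) :
    pk P g (i + m) = pk P g i + P ^ i * pk P (fun j => g (i + j)) m := by
  unfold pk
  rw [sum_range_add, mul_sum]
  congr 1
  refine sum_congr rfl (fun j _ => ?_)
  rw [pow_add]; ring

theorem pk_decomp (P : ℕ) (g : ℕ → ℕ) {i n : ℕ} (hi : i < n) (R : ℕ) :
    ∃ K, pk P g n + P ^ n * R = pk P g i + P ^ i * (g i + P * K) := by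
  obtain ⟨m, rfl⟩ : ∃ m, n = i + 1 + m := ⟨n - i - 1, by omega⟩
  refine ⟨pk P (fun j => g (i + 1 + j)) m + P ^ m * R, ?_⟩
  rw [pk_add, pk_succ, pow_add, pow_succ]
  ring

theorem fld_pk {P : ℕ} {g : ℕ → ℕ} {i n : ℕ} (h : ∀ j < n, g j < P) (hi : i < n) (R : ℕ) :
    fld P (pk P g n + P ^ n * R) i = g i := by
  obtain ⟨K, hK⟩ := pk_decomp P g hi R
  have h1 : pk P g i < P ^ i := pk_lt (fun j hj => h j (by omega))
  have hP : 0 < P ^ i := by omega
  unfold fld
  rw [hK, Nat.add_mul_div_left _ _ hP, Nat.div_eq_of_lt h1, zero_add, Nat.add_mul_mod_self_left,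
    Nat.mod_eq_of_lt (h i hi)]

theorem pk_div {P : ℕ} {g : ℕ → ℕ} {n : ℕ} (h : ∀ j < n, g j < P) (R : ℕ) :
    (pk P g n + P ^ n * R) / P ^ n = R := by
  have h1 : pk P g n < P ^ n := pk_lt h
  rw [Nat.add_mul_div_left _ _ (by omega), Nat.div_eq_of_lt h1, zero_add]

theorem pk_update (P : ℕ) (g : ℕ → ℕ) {i n : ℕ} (hi : i < n) (v : ℕ) :
    pk P (Function.update g i v) n + g i * P ^ i = pk P g n + v * P ^ i := by
  have hm : i ∈ range n := mem_range.2 hi
  unfold pk
  rw [← add_sum_erase _ _ hm, ← add_sum_erase _ (fun j => g j * P ^ j) hm,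
    Function.update_self]
  have : ∑ j ∈ (range n).erase i, Function.update g i v j * P ^ j =
      ∑ j ∈ (range n).erase i, g j * P ^ j := by
    refine sum_congr rfl (fun j hj => ?_)
    rw [Function.update_of_ne (ne_of_mem_erase hj)]
  rw [this]
  ring

theorem updN_pk {P : ℕ} {g : ℕ → ℕ} {i n : ℕ} (h : ∀ j < n, g j < P) (hi : i < n) (R v : ℕ) :
    updN P (pk P g n + P ^ n * R) i v = pk P (Function.update g i v) n + P ^ n * R := by
  unfold updN
  rw [fld_pk h hi]
  have h1 := pk_update P g hi v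
  have h2 : g i * P ^ i ≤ pk P g n :=
    single_le_sum (f := fun j => g j * P ^ j) (fun _ _ => Nat.zero_le _) (mem_range.2 hi)
  generalize P ^ n * R = u at *
  generalize v * P ^ i = v' at *
  generalize g i * P ^ i = w' at *
  omega

/-- Digits above the length are zero. -/
theorem fld_pk_of_le {P : ℕ} {g : ℕ → ℕ} {i n : ℕ} (h : ∀ j < n, g j < P) (hP : 0 < P)
    (hi : n ≤ i) : fld P (pk P g n) i = 0 := by
  unfold fld
  rw [Nat.div_eq_of_lt ((pk_lt h).trans_le (Nat.pow_le_pow_right hP hi)), Nat.zero_mod]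

/-! ### Frames -/

/-- The fields of a frame. -/
def gF (f : Fr) : ℕ → ℕ := fun i =>
  if i = 0 then f.pc else if i = 1 then f.pos else if i = 2 then f.lev else f.reg (i - 3)

theorem gF_reg (f : Fr) (r : ℕ) : gF f (3 + r) = f.reg r := by
  unfold gF
  rw [if_neg (by omega), if_neg (by omega), if_neg (by omega)]
  congr 1; omega

theorem gF_lt {m P : ℕ} {f : Fr} (h : f.Bd m P) : ∀ i < m + 3, gF f i < P := by
  intro i _
  obtain ⟨h1, h2, _, h4, h5⟩ := h
  unfold gF
  split_ifs
  · exact h1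
  · exact h4
  · exact h5
  · exact h2 _

theorem gF_upd (f : Fr) (r v : ℕ) :
    gF (f.upd r v) = Function.update (Function.update (gF f) 0 (f.pc + 1)) (3 + r) v := by
  funext i
  simp only [gF, Fr.upd, Function.update_apply]
  by_cases h0 : i = 0
  · subst h0; simp; omega
  · by_cases h1 : i = 1
    · subst h1; simp; omega
    · by_cases h2 : i = 2
      · subst h2; simp; omega
      · simp only [h0, h1, h2, if_false]
        by_cases h3 : i = 3 + r
        · rw [if_pos h3, if_pos (by omega)]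
        · rw [if_neg h3, if_neg (by omega)]

theorem gF_pc (f : Fr) (l : ℕ) : gF ⟨l, f.reg, f.pos, f.lev⟩ = Function.update (gF f) 0 l := by
  funext i
  simp only [gF, Function.update_apply]
  by_cases h0 : i = 0
  · rw [if_pos h0, if_pos h0]
  · rw [if_neg h0, if_neg h0, if_neg h0]

theorem gF_pos (f : Fr) (l p : ℕ) : gF ⟨l, f.reg, p, f.lev⟩ =
    Function.update (Function.update (gF f) 0 l) 1 p := by
  funext i
  simp only [gF, Function.update_apply]
  by_cases h0 : i = 0
  · subst h0; simp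
  · by_cases h1 : i = 1
    · subst h1; simp
    · simp [h0, h1]

/-- The number of a stack of frames. -/
def stN (P m : ℕ) : List Fr → ℕ
  | [] => 0
  | f :: rest => pk P (gF f) (m + 3) + P ^ (m + 3) * stN P m rest

theorem stN_lt {P m : ℕ} : ∀ fr : List Fr, (∀ f ∈ fr, f.Bd m P) →
    stN P m fr < (P ^ (m + 3)) ^ fr.length := by
  intro fr
  induction fr with
  | nil => intro _; simp [stN]
  | cons f rest ih =>
    intro h
    have h1 := ih (fun g hg => h g (List.mem_cons_of_mem _ hg))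
    have h2 : pk P (gF f) (m + 3) < P ^ (m + 3) := pk_lt (gF_lt (h f List.mem_cons_self))
    simp only [stN, List.length_cons]
    calc pk P (gF f) (m + 3) + P ^ (m + 3) * stN P m rest
        < P ^ (m + 3) + P ^ (m + 3) * stN P m rest := Nat.add_lt_add_right h2 _
      _ = P ^ (m + 3) * (stN P m rest + 1) := by ring
      _ ≤ P ^ (m + 3) * (P ^ (m + 3)) ^ rest.length := Nat.mul_le_mul_left _ h1
      _ = (P ^ (m + 3)) ^ (rest.length + 1) := by ring

theorem stN_pos {P m : ℕ} (hP : 0 < P) {f : Fr} (rest : List Fr) (hf : 0 < f.lev) :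
    stN P m (f :: rest) ≠ 0 := by
  simp only [stN]
  have h1 : gF f 2 * P ^ 2 ≤ pk P (gF f) (m + 3) :=
    single_le_sum (f := fun j => gF f j * P ^ j) (fun _ _ => Nat.zero_le _)
      (mem_range.2 (by omega))
  have h2 : gF f 2 = f.lev := rfl
  have h3 : 0 < P ^ 2 := pow_pos hP 2
  have h4 : 0 < f.lev * P ^ 2 := Nat.mul_pos hf h3
  rw [h2] at h1
  omega

/-- The number of a new frame. -/
def newN (P l q : ℕ) : ℕ := l * P ^ 2 + l * P ^ 3 + q * P ^ 4

theorem pk_newFr {P m l q : ℕ} (hm : 3 ≤ m) : pk P (gF (newFr l q)) (m + 3) = newN P l q := by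
  obtain ⟨n, rfl⟩ : ∃ n, m = n + 2 := ⟨m - 2, by omega⟩
  have e : n + 2 + 3 = 5 + n := by omega
  rw [e, pk_add]
  have h1 : pk P (fun j => gF (newFr l q) (5 + j)) n = 0 := by
    unfold pk
    refine sum_eq_zero (fun j _ => ?_)
    have : gF (newFr l q) (5 + j) = 0 := by
      simp only [gF, newFr, start]
      rw [if_neg (by omega), if_neg (by omega), if_neg (by omega), if_neg (by omega),
        if_neg (by omega)]
    show gF (newFr l q) (5 + j) * P ^ j = 0
    rw [this, Nat.zero_mul]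
  rw [h1, Nat.mul_zero, Nat.add_zero]
  simp only [pk_succ, pk_zero]
  simp [gF, newFr, start, newN]

end Vale.Agent.P313.CT
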