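import Vale.Agent.P313.H296.E3b

/-!
The stack machine is simulated in `LF`.
-/

namespace Vale.Agent.P313.CT

open Finset

theorem enc_lt {E : Env} {m P D : ℕ} (hP : 0 < P) {c : SC} (h : SC.Bd E m P D c) :
    enc E m P c < E.w ^ E.L * (P ^ (m + 3)) ^ D := by
  obtain ⟨hT, -, hlen, hfr, -⟩ := h
  have h1 : pk E.w c.tp E.L < E.w ^ E.L := pk_lt hT.1
  have h2 := stN_lt c.fr hfr
  have h3 : (P ^ (m + 3)) ^ c.fr.length ≤ (P ^ (m + 3)) ^ D :=
    Nat.pow_le_pow_right (pow_pos hP _) hlen
  unfold enc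
  calc pk E.w c.tp E.L + E.w ^ E.L * stN P m c.fr
      < E.w ^ E.L + E.w ^ E.L * stN P m c.fr := Nat.add_lt_add_right h1 _
    _ = E.w ^ E.L * (stN P m c.fr + 1) := by ring
    _ ≤ E.w ^ E.L * (P ^ (m + 3)) ^ D := Nat.mul_le_mul_left _ (by omega)

theorem enc_start {E : Env} {m P : ℕ} (hm : 3 ≤ m) (l q : ℕ) :
    enc E m P ⟨[newFr l q], fun _ => 0⟩ = E.w ^ E.L * newN P l q := by
  have h1 : pk E.w (fun _ => 0) E.L = 0 := by simp [pk]
  simp only [enc, stN]
  rw [h1, pk_newFr hm]
  ring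

/-- E3. -/
theorem spec_E3 : Spec_E3 := by
  intro code m d hm hcode
  refine ⟨d * (m + 4), fun k e top q0 W he htop hq0 hW => ?_⟩
  let P : P313.Fn k := fun x a => (x.length + e.B x a + 2) ^ d
  have hP : P313.LF P := ((LF.len.add he.B).add (LF.const 2)).powConst d
  let wL : P313.Fn k := fun x a => min (e.w x a ^ e.L x a) (W x a + 1)
  have hwL : P313.LF wL := LF.powMin he.w he.L hW
  let s0 : P313.Fn k := fun x a => wL x a * newN (P x a) (top x a) (q0 x a)
  have hs0 : P313.LF s0 := hwL.mul (lf_newN hP htop hq0)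
  let F : P313.Fn (k + 1) := fun x b =>
    stepN code m x (P x (Fin.tail b)) (e.w x (Fin.tail b)) (wL x (Fin.tail b)) (W x (Fin.tail b))
      (e.L x (Fin.tail b)) (e.B x (Fin.tail b)) (fun j => e.st x (Fin.cons j (Fin.tail b))) (b 0) %
      (W x (Fin.tail b) + 1)
  have hF : P313.LF F :=
    (lf_stepN (st := fun x b j => e.st x (Fin.cons j (Fin.tail b))) code m hP.weak he.w.weak
      hwL.weak hW.weak he.L.weak he.B.weak (LF.proj 0) (fun J hJ => LF.substTail he.st hJ)).mod
      hW.weak.succ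
  have hFe : ∀ x a r, F x (Fin.cons r a) = stepN code m x (P x a) (e.w x a) (wL x a) (W x a)
      (e.L x a) (e.B x a) (fun j => e.st x (Fin.cons j a)) r % (W x a + 1) := fun x a r => by
    simp only [F, Fin.tail_cons, Fin.cons_zero]
  have hiter : P313.LF (fun x a => (fun r => F x (Fin.cons r a))^[W x a] (s0 x a)) := by
    refine LF.iterate hF hs0 hW (fun x a => s0 x a + W x a) (hs0.pb.add hW.pb) (fun x a i _ => ?_)
    cases i with
    | zero => exact Nat.le_add_right _ _
    | succ i =>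
      rw [Function.iterate_succ_apply']
      simp only [hFe]
      exact (Nat.le_of_lt_succ (Nat.mod_lt _ (Nat.succ_pos _))).trans (Nat.le_add_left _ _)
  refine ⟨fun x a => min (fld (P x a)
    ((fun r => F x (Fin.cons r a))^[W x a] (s0 x a) / wL x a) (3 + 2)) (e.B x a),
    LF.min (lf_fld hP (hiter.div hwL) _) he.B, fun x a => min_le_right _ _, ?_⟩
  intro x a h1 h2 h3 h4 N f hN hbd hfin
  have hQ : 2 ≤ x.length + e.B x a + 2 := by omega
  have hPpos : 0 < P x a := pow_pos (by omega) _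
  have hwpos : 0 < e.w x a ^ e.L x a := pow_pos h1 _
  have hcpow : ∀ c : ℕ, 1 ≤ (x.length + e.B x a + 2) ^ c := fun c => Nat.one_le_pow _ _ (by omega)
  have hwW : e.w x a ^ e.L x a ≤ W x a :=
    (Nat.le_mul_of_pos_right _ (hcpow _)).trans h4
  have hwLe : wL x a = e.w x a ^ e.L x a := min_eq_left (by omega)
  have hNW : N ≤ W x a := by
    refine hN.trans (le_trans ?_ h4)
    refine le_trans ?_ (Nat.le_mul_of_pos_left _ hwpos)
    refine Nat.pow_le_pow_right (by omega) ?_
    refine Nat.mul_le_mul_right _ ?_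
    exact Nat.le_mul_of_pos_right _ (by omega)
  have hencW : ∀ j, enc (e.at x a) m (P x a)
      ((stepS code (e.at x a))^[j] ⟨[newFr (top x a) (q0 x a)], fun _ => 0⟩) ≤ W x a := by
    intro j
    refine (enc_lt hPpos (hbd j)).le.trans (le_trans ?_ h4)
    refine Nat.mul_le_mul_left _ ?_
    show ((((x.length + e.B x a + 2) ^ d) ^ (m + 3)) ^ (top x a + 1)) ≤ _
    rw [← pow_mul, ← pow_mul]
    refine Nat.pow_le_pow_right (by omega) ?_
    rw [← mul_assoc]
    refine Nat.mul_le_mul_right _ ?_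
    exact Nat.mul_le_mul_left _ (by omega)
  have key : ∀ j, (fun r => F x (Fin.cons r a))^[j] (s0 x a) = enc (e.at x a) m (P x a)
      ((stepS code (e.at x a))^[j] ⟨[newFr (top x a) (q0 x a)], fun _ => 0⟩) := by
    intro j
    induction j with
    | zero =>
      show s0 x a = _
      show wL x a * newN (P x a) (top x a) (q0 x a) =
        enc (e.at x a) m (P x a) ⟨[newFr (top x a) (q0 x a)], fun _ => 0⟩
      rw [enc_start hm, hwLe]
      rfl
    | succ j ih =>
      rw [Function.iterate_succ_apply', Function.iterate_succ_apply', ih]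
      have hb := hbd (j + 1)
      rw [Function.iterate_succ_apply'] at hb
      have hstep := stepN_eq (E := e.at x a) hm hcode hPpos h1 hwW (hbd j) hb
      have hlt := hencW (j + 1)
      rw [Function.iterate_succ_apply'] at hlt
      rw [← hstep] at hlt ⊢
      show F x (Fin.cons _ a) = _
      rw [hFe, hwLe]
      exact Nat.mod_eq_of_lt (Nat.lt_succ_of_le hlt)
  have hW1 := hfin (W x a) hNW
  have hbW := hbd (W x a)
  rw [hW1] at hbW
  have hfBd : f.Bd m (P x a) := hbW.2.2.2.1 f (by simp)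
  have hTW := hbW.1
  show min (fld (P x a) ((fun r => F x (Fin.cons r a))^[W x a] (s0 x a) / wL x a) (3 + 2))
    (e.B x a) = _
  rw [key, hW1, hwLe]
  have hdiv : enc (e.at x a) m (P x a) ⟨[f], fun _ => 0⟩ / e.w x a ^ e.L x a =
      stN (P x a) m [f] := enc_div (E := e.at x a) hTW
  rw [hdiv]
  simp only [stN]
  rw [fld_fr hfBd (by omega), gF_reg]

end Vale.Agent.P313.CT
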