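import Vale.Agent.P313.H296.LFx

/-!
The step function of the stack machine on numbers.
-/

namespace Vale.Agent.P313.CT

open Finset

/-- The answer to a question which is not a call. -/
def ansN (w B : ℕ) (st : ℕ → ℕ) (τ Q : ℕ) : ℕ :=
  min (if Q = 0 then B else if Q % 3 = 0 then st (Q / 3 - 1)
    else if Q % 3 = 1 then τ / w ^ (Q / 3) % w else 0) B

/-- Writing the digit `d` at `a`. -/
def wrN (w W τ a d : ℕ) : ℕ :=
  τ - τ / w ^ a % w * min (w ^ a) (W + 1) + d % w * min (w ^ a) (W + 1)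

/-- The effect of an instruction on the numbers of the tape and the stack. -/
def insN (m : ℕ) (x : List Bool) (P w wL W L B : ℕ) (st : ℕ → ℕ) (τ S : ℕ) : LI → ℕ
  | .inc r => τ + wL * updN P (updN P S 0 (fld P S 0 + 1)) (3 + r) (fld P S (3 + r) + 1)
  | .jzdec r l => if fld P S (3 + r) = 0 then τ + wL * updN P S 0 l else
      τ + wL * updN P (updN P S 0 (fld P S 0 + 1)) (3 + r) (fld P S (3 + r) - 1)
  | .inL => τ + wL * updN P (updN P S 0 (fld P S 0 + 1)) 1 (fld P S 1 - 1)
  | .inR => τ + wL * updN P (updN P S 0 (fld P S 0 + 1)) 1 (min (fld P S 1 + 1) (x.length + 1))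
  | .jin t l => if t (inSym x (fld P S 1)) = true then τ + wL * updN P S 0 (fld P S 0 + 1)
      else τ + wL * updN P S 0 l
  | .jmp l => τ + wL * updN P S 0 l
  | .ora o a =>
    if ¬ fld P S (3 + a) = 0 ∧ fld P S (3 + a) % 3 = 2 ∧
        (Nat.unpair (fld P S (3 + a) / 3)).1 < fld P S 2 then
      τ + wL * (newN P (Nat.unpair (fld P S (3 + a) / 3)).1
        (min (Nat.unpair (fld P S (3 + a) / 3)).2 B) + P ^ (m + 3) * S)
    else τ + wL * updN P (updN P S 0 (fld P S 0 + 1)) (3 + o) (ansN w B st τ (fld P S (3 + a)))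
  | .wr a d => (if fld P S (3 + a) < L then wrN w W τ (fld P S (3 + a)) (fld P S (3 + d)) else τ) +
      wL * updN P S 0 (fld P S 0 + 1)

/-- The frame below receives the value. -/
def recN (P B S R : ℕ) : LI → ℕ
  | .ora o _ => updN P (updN P R 0 (fld P R 0 + 1)) (3 + o) (min (fld P S (3 + 2)) B)
  | _ => R

/-- A frame which has finished. -/
def popN (code : List LI) (m P wL B τ S : ℕ) : ℕ :=
  if S / P ^ (m + 3) = 0 then τ + wL * S else
    τ + wL * disp code (fld P (S / P ^ (m + 3)) 0) (fun I => recN P B S (S / P ^ (m + 3)) I)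
      (S / P ^ (m + 3))

/-- The step function on numbers. -/
def stepN (code : List LI) (m : ℕ) (x : List Bool) (P w wL W L B : ℕ) (st : ℕ → ℕ) (s : ℕ) : ℕ :=
  disp code (fld P (s / wL) 0) (fun I => insN m x P w wL W L B st (s % wL) (s / wL) I)
    (popN code m P wL B (s % wL) (s / wL))

variable {k : ℕ}

theorem lf_ansN {w B τ Q : Fn k} {st : List Bool → (Fin k → ℕ) → ℕ → ℕ} (hw : LF w) (hB : LF B)
    (hτ : LF τ) (hQ : LF Q) (hst : ∀ J : Fn k, LF J → LF (fun x a => st x a (J x a))) :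
    LF (fun x a => ansN (w x a) (B x a) (st x a) (τ x a) (Q x a)) := by
  unfold ansN
  have h3 : LF (fun x a => Q x a / 3) := hQ.div (LF.const 3)
  have h4 : LF (fun x a => Q x a % 3) := hQ.mod (LF.const 3)
  refine LF.min (LF.ite (LFP.eq hQ (LF.const 0)) hB (LF.ite (LFP.eq h4 (LF.const 0))
    (hst _ (h3.sub (LF.const 1))) (LF.ite (LFP.eq h4 (LF.const 1))
    ((LF.divPow hw hτ h3).mod hw) (LF.const 0)))) hB

theorem lf_wrN {w W τ u v : Fn k} (hw : LF w) (hW : LF W) (hτ : LF τ) (hu : LF u) (hv : LF v) :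
    LF (fun x a => wrN (w x a) (W x a) (τ x a) (u x a) (v x a)) := by
  unfold wrN
  have h1 := LF.powMin hw hu hW
  exact (hτ.sub (((LF.divPow hw hτ hu).mod hw).mul h1)).add ((hv.mod hw).mul h1)

theorem lf_newN {P u v : Fn k} (hP : LF P) (hu : LF u) (hv : LF v) :
    LF (fun x a => newN (P x a) (u x a) (v x a)) := by
  unfold newN
  exact ((hu.mul (hP.powConst 2)).add (hu.mul (hP.powConst 3))).add (hv.mul (hP.powConst 4))

theorem lf_insN (m : ℕ) {P w wL W L B τ S : Fn k} {st : List Bool → (Fin k → ℕ) → ℕ → ℕ}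
    (hP : LF P) (hw : LF w) (hwL : LF wL) (hW : LF W) (hL : LF L) (hB : LF B) (hτ : LF τ)
    (hS : LF S) (hst : ∀ J : Fn k, LF J → LF (fun x a => st x a (J x a))) (I : LI) :
    LF (fun x a => insN m x (P x a) (w x a) (wL x a) (W x a) (L x a) (B x a) (st x a) (τ x a)
      (S x a) I) := by
  have hf : ∀ i, LF (fun x a => fld (P x a) (S x a) i) := fun i => lf_fld hP hS i
  have hpc : ∀ v : Fn k, LF v → LF (fun x a => updN (P x a) (S x a) 0 (v x a)) :=
    fun v hv => lf_updN hP hS 0 hv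
  have hup : ∀ (i : ℕ) (v : Fn k), LF v → LF (fun x a =>
      τ x a + wL x a * updN (P x a) (updN (P x a) (S x a) 0 (fld (P x a) (S x a) 0 + 1)) i (v x a)) :=
    fun i v hv => hτ.add (hwL.mul (lf_updN hP (hpc _ (hf 0).succ) i hv))
  cases I with
  | inc r => exact hup _ _ (hf _).succ
  | jzdec r l =>
    exact LF.ite (LFP.eq (hf _) (LF.const 0)) (hτ.add (hwL.mul (hpc _ (LF.const l))))
      (hup _ _ ((hf _).sub (LF.const 1)))
  | inL => exact hup _ _ ((hf _).sub (LF.const 1))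
  | inR => exact hup _ _ (LF.min (hf _).succ LF.len.succ)
  | jin t l =>
    exact LF.ite (LFP.symT t (hf 1)) (hτ.add (hwL.mul (hpc _ (hf 0).succ)))
      (hτ.add (hwL.mul (hpc _ (LF.const l))))
  | jmp l => exact hτ.add (hwL.mul (hpc _ (LF.const l)))
  | ora o r =>
    have h3 : LF (fun x a => fld (P x a) (S x a) (3 + r) / 3) := (hf _).div (LF.const 3)
    exact LF.ite ((LFP.eq (hf _) (LF.const 0)).not.and
      ((LFP.eq ((hf _).mod (LF.const 3)) (LF.const 2)).and (LFP.lt h3.unpair1 (hf 2))))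
      (hτ.add (hwL.mul ((lf_newN hP h3.unpair1 (LF.min h3.unpair2 hB)).add
        ((hP.powConst _).mul hS))))
      (hup _ _ (lf_ansN hw hB hτ (hf _) hst))
  | wr r d =>
    exact (LF.ite (LFP.lt (hf _) hL) (lf_wrN hw hW hτ (hf _) (hf _)) hτ).add
      (hwL.mul (hpc _ (hf 0).succ))

theorem lf_recN {P B S R : Fn k} (hP : LF P) (hB : LF B) (hS : LF S) (hR : LF R) (I : LI) :
    LF (fun x a => recN (P x a) (B x a) (S x a) (R x a) I) := by
  cases I with
  | ora o r =>
    exact lf_updN hP (lf_updN hP hR 0 (lf_fld hP hR 0).succ) _ (LF.min (lf_fld hP hS _) hB)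
  | inc r => exact hR
  | jzdec r l => exact hR
  | inL => exact hR
  | inR => exact hR
  | jin t l => exact hR
  | jmp l => exact hR
  | wr r d => exact hR

theorem lf_popN (code : List LI) (m : ℕ) {P wL B τ S : Fn k} (hP : LF P) (hwL : LF wL)
    (hB : LF B) (hτ : LF τ) (hS : LF S) :
    LF (fun x a => popN code m (P x a) (wL x a) (B x a) (τ x a) (S x a)) := by
  have hR : LF (fun x a => S x a / P x a ^ (m + 3)) := hS.div (hP.powConst _)
  exact LF.ite (LFP.eq hR (LF.const 0)) (hτ.add (hwL.mul hS))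
    (hτ.add (hwL.mul (lf_disp code (lf_fld hP hR 0) (fun I => lf_recN hP hB hS hR I) hR)))

theorem lf_stepN (code : List LI) (m : ℕ) {P w wL W L B s : Fn k}
    {st : List Bool → (Fin k → ℕ) → ℕ → ℕ}
    (hP : LF P) (hw : LF w) (hwL : LF wL) (hW : LF W) (hL : LF L) (hB : LF B) (hs : LF s)
    (hst : ∀ J : Fn k, LF J → LF (fun x a => st x a (J x a))) :
    LF (fun x a => stepN code m x (P x a) (w x a) (wL x a) (W x a) (L x a) (B x a) (st x a)
      (s x a)) := by
  have hτ := hs.mod hwL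
  have hS := hs.div hwL
  exact lf_disp code (lf_fld hP hS 0)
    (fun I => lf_insN m hP hw hwL hW hL hB hτ hS hst I) (lf_popN code m hP hwL hB hτ hS)

end Vale.Agent.P313.CT
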