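import Vale.Agent.P313.H296.E3a

/-!
The step function on numbers simulates the stack machine.
-/

namespace Vale.Agent.P313.CT

open Finset

/-- The number of a configuration. -/
def enc (E : Env) (m P : ℕ) (c : SC) : ℕ := pk E.w c.tp E.L + E.w ^ E.L * stN P m c.fr

theorem enc_mod {E : Env} {m P : ℕ} {c : SC} (h : TOk E c.tp) :
    enc E m P c % E.w ^ E.L = pk E.w c.tp E.L := by
  unfold enc
  rw [Nat.add_mul_mod_self_left, Nat.mod_eq_of_lt (pk_lt h.1)]

theorem enc_div {E : Env} {m P : ℕ} {c : SC} (h : TOk E c.tp) :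
    enc E m P c / E.w ^ E.L = stN P m c.fr := pk_div h.1 _

/-- Tape digits. -/
theorem digit_eq {E : Env} {t : Tape} (hw : 1 ≤ E.w) (h : TOk E t) (j : ℕ) :
    pk E.w t E.L / E.w ^ j % E.w = t j := by
  by_cases hj : j < E.L
  · have := fld_pk (P := E.w) (g := t) (n := E.L) h.1 hj 0
    simpa [fld] using this
  · have := fld_pk_of_le (P := E.w) (g := t) (n := E.L) h.1 hw (not_lt.1 hj)
    rw [h.2 j (not_lt.1 hj)]
    simpa [fld] using this

theorem wrN_eq {E : Env} {W : ℕ} {t : Tape} (hw : 1 ≤ E.w) (hW : E.w ^ E.L ≤ W) (h : TOk E t)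
    {a : ℕ} (ha : a < E.L) (d : ℕ) :
    wrN E.w W (pk E.w t E.L) a d = pk E.w (Function.update t a (d % E.w)) E.L := by
  have h1 : E.w ^ a ≤ W := (Nat.pow_le_pow_right hw ha.le).trans hW
  have h2 : min (E.w ^ a) (W + 1) = E.w ^ a := min_eq_left (by omega)
  have h3 := updN_pk (P := E.w) (g := t) (n := E.L) h.1 ha 0 (d % E.w)
  simp only [Nat.mul_zero, Nat.add_zero] at h3
  unfold wrN
  rw [h2, ← h3]
  rfl

theorem wrT_pk {E : Env} {W : ℕ} {t : Tape} (hw : 1 ≤ E.w) (hW : E.w ^ E.L ≤ W) (h : TOk E t)
    (a d : ℕ) :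
    (if a < E.L then wrN E.w W (pk E.w t E.L) a d else pk E.w t E.L) =
      pk E.w (wrT E a d t) E.L := by
  unfold wrT
  split_ifs with h1
  · exact wrN_eq hw hW h h1 d
  · rfl

theorem ansN_eq {E : Env} {t : Tape} (hw : 1 ≤ E.w) (h : TOk E t) (Q : ℕ) :
    ansN E.w E.B E.st (pk E.w t E.L) Q = (inp E (fun _ _ => 0) t).O Q := by
  unfold ansN
  rw [digit_eq hw h]
  rfl

section

variable {m P : ℕ} {f : Fr} {R : ℕ}

theorem fld_fr (h : f.Bd m P) {i : ℕ} (hi : i < m + 3) :
    fld P (pk P (gF f) (m + 3) + P ^ (m + 3) * R) i = gF f i := fld_pk (gF_lt h) hi R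

theorem updN_fr (h : f.Bd m P) (v : ℕ) :
    updN P (pk P (gF f) (m + 3) + P ^ (m + 3) * R) 0 v =
      pk P (gF ⟨v, f.reg, f.pos, f.lev⟩) (m + 3) + P ^ (m + 3) * R := by
  rw [updN_pk (gF_lt h) (by omega), gF_pc f v]

theorem updN_upd (h : f.Bd m P) {r v : ℕ} (hr : r < m) (h1 : (f.upd r v).pc < P) :
    updN P (updN P (pk P (gF f) (m + 3) + P ^ (m + 3) * R) 0 (f.pc + 1)) (3 + r) v =
      pk P (gF (f.upd r v)) (m + 3) + P ^ (m + 3) * R := by
  have h2 : ∀ j < m + 3, gF (⟨f.pc + 1, f.reg, f.pos, f.lev⟩ : Fr) j < P := by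
    intro j hj
    rw [gF_pc f, Function.update_apply]
    split_ifs
    · exact h1
    · exact gF_lt h j hj
  rw [updN_fr h, updN_pk h2 (by omega), gF_pc f, gF_upd]

theorem updN_pos (h : f.Bd m P) {v : ℕ} (h1 : f.pc + 1 < P) :
    updN P (updN P (pk P (gF f) (m + 3) + P ^ (m + 3) * R) 0 (f.pc + 1)) 1 v =
      pk P (gF ⟨f.pc + 1, f.reg, v, f.lev⟩) (m + 3) + P ^ (m + 3) * R := by
  have h2 : ∀ j < m + 3, gF (⟨f.pc + 1, f.reg, f.pos, f.lev⟩ : Fr) j < P := by
    intro j hj
    rw [gF_pc f, Function.update_apply]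
    split_ifs
    · exact h1
    · exact gF_lt h j hj
  rw [updN_fr h, updN_pk h2 (by omega), gF_pc f (f.pc + 1), gF_pos f (f.pc + 1) v]

end

theorem stepN_eq {code : List LI} {m : ℕ} (hm : 3 ≤ m) (hcode : ∀ i ∈ code, i.Rb m) {E : Env}
    {P D W : ℕ} (hP : 0 < P) (hw : 1 ≤ E.w) (hW : E.w ^ E.L ≤ W) {c : SC} (h : SC.Bd E m P D c)
    (h' : SC.Bd E m P D (stepS code E c)) :
    stepN code m E.word P E.w (E.w ^ E.L) W E.L E.B E.st (enc E m P c) =
      enc E m P (stepS code E c) := by
  obtain ⟨hT, hne, hlen, hfr, htail⟩ := h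
  unfold stepN
  rw [enc_mod hT, enc_div hT]
  obtain ⟨fr, t⟩ := c
  cases fr with
  | nil => exact absurd rfl hne
  | cons f rest =>
    have hf : f.Bd m P := hfr f List.mem_cons_self
    simp only [stN]
    have e0 : ∀ i < m + 3, fld P (pk P (gF f) (m + 3) + P ^ (m + 3) * stN P m rest) i = gF f i :=
      fun i hi => fld_fr hf hi
    have epc : fld P (pk P (gF f) (m + 3) + P ^ (m + 3) * stN P m rest) 0 = f.pc := e0 0 (by omega)
    have epos : fld P (pk P (gF f) (m + 3) + P ^ (m + 3) * stN P m rest) 1 = f.pos :=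
      e0 1 (by omega)
    have elev : fld P (pk P (gF f) (m + 3) + P ^ (m + 3) * stN P m rest) 2 = f.lev :=
      e0 2 (by omega)
    have ereg : ∀ r < m, fld P (pk P (gF f) (m + 3) + P ^ (m + 3) * stN P m rest) (3 + r) =
        f.reg r := fun r hr => by rw [e0 _ (by omega), gF_reg]
    rw [epc]
    rcases hI : code[f.pc]? with _ | I
    · rw [disp_none hI]
      unfold popN
      have hdiv : (pk P (gF f) (m + 3) + P ^ (m + 3) * stN P m rest) / P ^ (m + 3) =
          stN P m rest := pk_div (gF_lt hf) _
      rw [hdiv]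
      cases rest with
      | nil =>
        simp only [stepS, hI]
        rw [if_pos (show stN P m [] = 0 from rfl)]
        simp only [enc, stN]
      | cons g rest' =>
        have hg : 0 < g.lev := htail g (by simp)
        have hgB : g.Bd m P := hfr g (by simp)
        rw [if_neg (stN_pos hP rest' hg)]
        simp only [stepS, hI] at h' ⊢
        have h'g := h'.2.2.2.1 (recv code (min (f.reg 2) E.B) g) List.mem_cons_self
        simp only [enc, stN]
        congr 2
        have e1 : fld P (pk P (gF g) (m + 3) + P ^ (m + 3) * stN P m rest') 0 = g.pc :=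
          fld_fr hgB (by omega)
        rw [e1]
        rcases hJ : code[g.pc]? with _ | J
        · rw [disp_none hJ]
          simp only [recv, hJ]
        · rw [disp_some hJ]
          have hR := hcode J (List.mem_of_getElem? hJ)
          have e2 : fld P (pk P (gF f) (m + 3) + P ^ (m + 3) *
              (pk P (gF g) (m + 3) + P ^ (m + 3) * stN P m rest')) (3 + 2) = f.reg 2 :=
            ereg 2 (by omega)
          cases J with
          | ora o r =>
            simp only [recv, hJ] at h'g ⊢
            simp only [recN]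
            rw [e1, e2]
            exact updN_upd hgB hR.1 h'g.1
          | inc r => simp only [recv, hJ, recN]
          | jzdec r l => simp only [recv, hJ, recN]
          | inL => simp only [recv, hJ, recN]
          | inR => simp only [recv, hJ, recN]
          | jin t l => simp only [recv, hJ, recN]
          | jmp l => simp only [recv, hJ, recN]
          | wr r d => simp only [recv, hJ, recN]
    · rw [disp_some hI]
      have hR := hcode I (List.mem_of_getElem? hI)
      have hB : ∀ {f' : Fr} {rest' : List Fr} {t' : Tape},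
          SC.Bd E m P D ⟨f' :: rest', t'⟩ → f'.pc < P :=
        fun h => (h.2.2.2.1 _ List.mem_cons_self).1
      cases I with
      | inc r =>
        simp only [stepS, hI] at h' ⊢
        simp only [enc, stN, insN]
        rw [epc, ereg r hR, updN_upd hf hR (hB h')]
      | jzdec r l =>
        simp only [stepS, hI] at h' ⊢
        simp only [insN]
        rw [epc, ereg r hR]
        split_ifs with h0
        · rw [if_pos h0] at h'
          rw [updN_fr hf]
          simp only [enc, stN]
        · rw [if_neg h0] at h'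
          rw [updN_upd hf hR (hB h')]
          simp only [enc, stN]
      | inL =>
        simp only [stepS, hI] at h' ⊢
        simp only [insN]
        rw [epc, epos, updN_pos hf (hB h')]
        simp only [enc, stN, moveIn]
      | inR =>
        simp only [stepS, hI] at h' ⊢
        simp only [insN]
        rw [epc, epos, updN_pos hf (hB h')]
        simp only [enc, stN, moveIn]
      | jin u l =>
        simp only [stepS, hI] at h' ⊢
        simp only [insN]
        rw [epc, epos]
        split_ifs with h0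
        · rw [updN_fr hf]
          simp only [enc, stN]
        · rw [updN_fr hf]
          simp only [enc, stN]
      | jmp l =>
        simp only [stepS, hI] at h' ⊢
        simp only [insN]
        rw [updN_fr hf]
        simp only [enc, stN]
      | ora o r =>
        simp only [stepS, hI] at h' ⊢
        simp only [insN]
        rw [epc, elev, ereg r hR.2]
        by_cases h0 : f.reg r ≠ 0 ∧ f.reg r % 3 = 2 ∧ (Nat.unpair (f.reg r / 3)).1 < f.lev
        · rw [if_pos h0, if_pos h0]
          simp only [enc, stN]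
          rw [pk_newFr hm]
        · rw [if_neg h0] at h'
          rw [if_neg h0, if_neg h0, ansN_eq hw hT]
          rw [updN_upd hf hR.1 (hB h')]
          simp only [enc, stN]
      | wr r d =>
        simp only [stepS, hI] at h' ⊢
        simp only [insN]
        rw [epc, ereg r hR.1, ereg d hR.2, wrT_pk hw hW hT, updN_fr hf]
        simp only [enc, stN]

end Vale.Agent.P313.CT
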