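import Vale.Agent.P313.CT.E1
import Vale.Agent.P313.CT.E2
import Vale.Agent.P313.H296.E3
import Vale.Agent.P313.H296.E4

/-!
The engine.
-/

namespace Vale.Agent.P313.CT

/-- THE ENGINE. -/
theorem engine : Spec_ENGINE := engine_of spec_E1 spec_E2 spec_E3

end Vale.Agent.P313.CT
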