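import Vale.Agent.P313.H296.Final
import Vale.Agent.P313.H427.Par6
import Vale.Agent.P313.H136.SemInst
import Vale.Agent.P313.H931.MeanP
import Vale.Agent.P313.H126.Count

/-!
The hypotheses of the final theorem on the parameters, the kernels and the seeds.
-/

namespace Vale.Agent.P313.Z

open Finset BP H126 H427
open scoped Classical

variable {M : RTM} {c : ℕ}

theorem semNum (x : List Bool) : H136.SemNum (parx M c x) where
  prime := q_prime x
  r1 := (numOK x).r1
  q16 := sixteen x
  lam := by rw [parx_Lam, parx_q]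
  b_le := (hcm x).1
  hcm := (hcm x).2
  mix := by
    have h1 := lamx (M := M) (c := c) x
    have hq : (0 : ℝ) < ((parx M c x).q : ℝ) := by exact_mod_cast (q_prime x).pos
    have e : (parx M c x).cmax + (parx M c x).nd + 310 * (parx M c x).r =
        (parx M c x).cmax + (parx M c x).nd + 10 * 31 * (parx M c x).r := by ring
    rw [e]
    generalize (parx M c x).cmax + (parx M c x).nd + 10 * 31 * (parx M c x).r = m at h1 ⊢
    rw [div_pow, div_le_div_iff₀ (pow_pos hq 31) (pow_pos hq 23), one_mul] at h1
    have h2 : m ^ 31 * (parx M c x).q ^ 23 ≤ (parx M c x).q ^ 31 := by exact_mod_cast h1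
    have h3 : (parx M c x).q ^ 31 = (parx M c x).q ^ 8 * (parx M c x).q ^ 23 := by
      rw [← pow_add]
    rw [h3] at h2
    exact Nat.le_of_mul_le_mul_right h2 (Nat.pow_pos (q_prime x).pos)
  hash := by
    have h1 := hash_ok (M := M) (c := c) x
    have e : (parx M c x).cmax + (parx M c x).nd + 310 * (parx M c x).r =
        (parx M c x).cmax + (parx M c x).nd + 10 * 31 * (parx M c x).r := by ring
    rw [e]
    exact h1
  n_le := nd_ok x
  rk_le := by rw [parx_rk, parx_r]; exact (ppx (M := M) (c := c) x).rk_le_r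
  q6 := by
    rw [parx_rk, parx_r, parx_q]
    have p := ppx (M := M) (c := c) x
    have h1 := p.diff_ge
    have h2 := p.q2
    rw [← pow_succ'] at h2
    calc qf (hh M c x) ^ 6 ≤ (2 ^ (ca * pr (rkf (hh M c x)) + 1)) ^ 6 := Nat.pow_le_pow_left h2 6
      _ = 2 ^ ((ca * pr (rkf (hh M c x)) + 1) * 6) := by rw [← pow_mul]
      _ ≤ 2 ^ 2 ^ (pr (rkf (hh M c x)) - rkf (hh M c x)) := by
          apply Nat.pow_le_pow_right (by norm_num)
          omega

theorem semOK (x : List Bool) : H974.SemOK (parx M c x).toPar (theSem (parx M c x)) :=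
  H136.semOK (semNum x)

/-- Most seeds are good. -/
theorem card_good (x : List Bool) : 4 * ((range (nSd (parx M c x))).filter fun sd =>
      ¬ GoodSd (parx M c x) (theSem (parx M c x)) (theTSem (parx M c x)) (csx M c x) sd).card ≤
      nSd (parx M c x) := by
  have : Fact (parx M c x).Q.Prime := ⟨Q_prime x⟩
  have hm := H931.meanOK (parx M c x)
    (VD := fun d => ∀ y < (parx M c x).n, d.c y ≤ (parx M c x).cmax) (fun d hd => hd)
  have e : (parx M c x).r * ((parx M c x).q ^ (parx M c x).cmax * (parx M c x).Lam ^ 2) =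
      Bf M c x := by unfold Bf; ring
  rw [e] at hm
  exact card_bad_sd (numOK x).r1 hm (D_pos' x) (smp_k x) (cs := csx M c x)
    (fun o _ s hs y _ => (H974.c_le y s).trans
      (by have := bS_le (M := M) (c := c) x; omega))
    (epsx_pos x) (smp_del x) (smp_c0 x) (smp_L x) (smp_DQ x) (smp_N1 x) (smp_N2 x)

/-- The final theorem from the correctness of the program for good seeds. -/
theorem decides_good {A : Set (List Bool)}
    (hM : M.Bounded (fun n => (n + 2) ^ c) (fun n => c * Nat.log 2 (n + 2)))
    (hP : ∀ x : List Bool,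
      (x ∈ A → 2 / 3 ≤ M.probAt x true ((x.length + 2) ^ c) 0 M.init) ∧
      (x ∉ A → M.probAt x true ((x.length + 2) ^ c) 0 M.init ≤ 1 / 3))
    {prog : CT.CP} (hok : prog.Ok)
    (hgood : ∀ x sd,
      GoodSd (parx M c x) (theSem (parx M c x)) (theTSem (parx M c x)) (csx M c x) sd →
      CT.Restores (envx M c x sd) prog (topx M c x) ∧
      CT.val (envx M c x sd) prog (topx M c x) (q0x M c x) (fun _ => 0) =
        (data (parx M c x).toPar (theSem (parx M c x)) (csx M c x) (oSd (parx M c x) sd)
          (parx M c x).S).A (stx M c x) 0) :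
    ∃ (D : RTM) (e : ℕ), D.Decides A (fun n => (2 : ℝ) ^ (e * sp n + e))
      (fun n => e * sp n + e) :=
  decides_of hM hP hok semOK numOK runOK T_ok card_good hgood

end Vale.Agent.P313.Z
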