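import Vale.Agent.P313.H296.Shell
import Vale.Agent.P313.H296.Chain
import Vale.Agent.P313.H974.All
import Vale.Agent.P313.H427.Space
import Vale.Agent.P313.BP.Inst

/-!
The final theorem from its parts.
-/

namespace Vale.Agent.P313.Z

open Finset BP H126 H427
open scoped Classical

variable (M : RTM) (c : ℕ)

/-- The chain of the machine. -/
noncomputable def csx (x : List Bool) : ℕ → Bool → ℕ := M.cs x (Sel.sW M c x) (Sel.sT c x)

/-- Its start. -/
noncomputable def stx (x : List Bool) : ℕ := M.startN x (Sel.sW M c x) (Sel.sT c x)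

/-- The top level. -/
noncomputable def topx (x : List Bool) : ℕ := (parx M c x).S * (parx M c x).m

/-- The query of the top level. -/
noncomputable def q0x (x : List Bool) : ℕ := Nat.pair 0 (Nat.pair (stx M c x) 0)

/-- The threshold. -/
noncomputable def thrx (x : List Bool) : ℕ := (parx M c x).q ^ (parx M c x).b / 2

instance instNZ (x : List Bool) : NeZero (parx M c x).q :=
  ⟨by rw [parx_q]; exact (ppx (M := M) (c := c) x).qp.ne_zero⟩

variable {M c}

theorem hitR_eq (cs : ℕ → Bool → ℕ) (w : ℕ) : ∀ t v, H974.hitR cs w t v = CT.hitR cs w t v := by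
  intro t
  induction t with
  | zero => intro v; rfl
  | succ t ih => intro v; simp only [H974.hitR, CT.hitR, ih]

theorem lf_npair {k : ℕ} {f g : Fn k} (hf : LF f) (hg : LF g) :
    LF (fun x a => Nat.pair (f x a) (g x a)) := by
  unfold Nat.pair
  exact LF.ite (LFP.lt hf hg) ((hg.mul hg).add hf) (((hf.mul hf).add hf).add hg)

theorem lfx_top : Sel.LFx (topx M c) := by
  unfold topx
  refine (LF.mul (lfx_S (M := M) (c := c)) (lfx_m (M := M) (c := c))).congr (fun x a => ?_)
  show _ = (parx M c x).S * (parx M c x).m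
  rw [parx_S, parx_m]

theorem lfx_q0 : Sel.LFx (q0x M c) :=
  lf_npair (LF.const 0) (lf_npair (CT.lfx_start M c) (LF.const 0))

theorem lfx_thr : Sel.LFx (thrx M c) :=
  LF.div ((lfx_powb (M := M) (c := c)).congr (fun x a => by simp only [parx, thePar])) (LF.const 2)

theorem pair_le_sq (a b m : ℕ) (ha : a ≤ m) (hb : b ≤ m) : Nat.pair a b ≤ (m + 1) ^ 2 := by
  unfold Nat.pair
  split_ifs <;> nlinarith

/-- The parameter `n` is large enough for the chain. -/
theorem n_ge (x : List Bool) : Sel.sW M c x ^ M.nd + 3 ≤ (parx M c x).n := by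
  have h1 : (parx M c x).n = Sel.sN M c x + 1 := by simp only [parx, thePar]
  rw [h1]
  unfold Sel.sN
  omega

theorem top_le (x : List Bool) : topx M c x ≤ Bx M c x := by
  have h1 := levels_log_le (M := M) (c := c) x
  have h2 := (ppx (M := M) (c := c) x).levels_le
  have h3 := (ppx (M := M) (c := c) x).toCb.rk_le
  have hpos := hh_pos (M := M) (c := c) x
  unfold topx
  rw [parx_S, parx_m]
  have h4 : pS (hh M c x) (rkf (hh M c x)) * pm (hh M c x) (rkf (hh M c x)) ≤
      7800 * (hh M c x) := by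
    have h5 : rkf (hh M c x) ^ 2 ≤ hh M c x * hh M c x := by
      rw [pow_two]; exact Nat.mul_le_mul h3 h3
    have h6 : pS (hh M c x) (rkf (hh M c x)) * pm (hh M c x) (rkf (hh M c x)) * hh M c x ≤
        7800 * hh M c x * hh M c x := by
      calc _ ≤ 7800 * rkf (hh M c x) ^ 2 := h2
        _ ≤ 7800 * (hh M c x * hh M c x) := Nat.mul_le_mul_left _ h5
        _ = _ := by ring
    exact Nat.le_of_mul_le_mul_right h6 hpos
  refine h4.trans ((PP.lin_le (hh M c x) 13 (by norm_num)).trans ?_)
  unfold Bx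
  apply PP.pow_mono
  simp only [cB]
  omega

theorem q0_le (hM : M.Bounded (fun n => (n + 2) ^ c) (fun n => c * Nat.log 2 (n + 2)))
    (x : List Bool) : q0x M c x ≤ Bx M c x := by
  have h1 := (CT.chain_ok hM x (n_ge (M := M) (c := c) x)).start_lt
  have h2 := n_le (M := M) (c := c) x
  have hpos := hh_pos (M := M) (c := c) x
  have h3 : stx M c x + 1 ≤ 2 ^ hh M c x := by unfold stx; omega
  have h4 : Nat.pair (stx M c x) 0 ≤ (2 ^ hh M c x) ^ 2 :=
    (pair_le_sq (stx M c x) 0 (stx M c x) le_rfl (Nat.zero_le _)).trans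
      (Nat.pow_le_pow_left h3 2)
  have h5 : q0x M c x ≤ ((2 ^ hh M c x) ^ 2 + 1) ^ 2 := pair_le_sq _ _ _ (Nat.zero_le _) h4
  refine h5.trans ?_
  unfold Bx
  have h6 : (2 ^ hh M c x) ^ 2 + 1 ≤ 2 ^ (3 * hh M c x) := by
    have h7 : (2 ^ hh M c x) ^ 2 = 2 ^ (2 * hh M c x) := by rw [← pow_mul]; congr 1; ring
    have h8 : 2 ^ (3 * hh M c x) = 2 ^ (2 * hh M c x) * 2 ^ hh M c x := by
      rw [← pow_add]; congr 1; ring
    have h9 : 2 ≤ 2 ^ hh M c x := by
      calc 2 = 2 ^ 1 := (pow_one 2).symm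
        _ ≤ 2 ^ hh M c x := PP.pow_mono hpos
    have h10 : 1 ≤ 2 ^ (2 * hh M c x) := Nat.one_le_two_pow
    rw [h7, h8]
    nlinarith
  calc ((2 ^ hh M c x) ^ 2 + 1) ^ 2 ≤ (2 ^ (3 * hh M c x)) ^ 2 := Nat.pow_le_pow_left h6 2
    _ = 2 ^ (3 * hh M c x * 2) := by rw [← pow_mul]
    _ ≤ 2 ^ (cB * hh M c x) := PP.pow_mono (by simp only [cB]; omega)

/-- THE FINAL THEOREM FROM ITS PARTS. -/
theorem decides_of {A : Set (List Bool)}
    (hM : M.Bounded (fun n => (n + 2) ^ c) (fun n => c * Nat.log 2 (n + 2)))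
    (hP : ∀ x : List Bool,
      (x ∈ A → 2 / 3 ≤ M.probAt x true ((x.length + 2) ^ c) 0 M.init) ∧
      (x ∉ A → M.probAt x true ((x.length + 2) ^ c) 0 M.init ≤ 1 / 3))
    {prog : CT.CP} (hok : prog.Ok)
    (hsem : ∀ x, H974.SemOK (parx M c x).toPar (theSem (parx M c x)))
    (hnum : ∀ x, H974.NumOK (parx M c x).toPar)
    (hrun : ∀ x, H974.RunOK (parx M c x).toPar (parx M c x).S)
    (hT : ∀ x, 20 * Sel.sT c x ≤ 2 ^ ((parx M c x).rk * (parx M c x).K))
    (hcard : ∀ x, 4 * ((range (nSd (parx M c x))).filter fun sd =>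
      ¬ GoodSd (parx M c x) (theSem (parx M c x)) (theTSem (parx M c x)) (csx M c x) sd).card ≤
      nSd (parx M c x))
    (hgood : ∀ x sd,
      GoodSd (parx M c x) (theSem (parx M c x)) (theTSem (parx M c x)) (csx M c x) sd →
      CT.Restores (envx M c x sd) prog (topx M c x) ∧
      CT.val (envx M c x sd) prog (topx M c x) (q0x M c x) (fun _ => 0) =
        (data (parx M c x).toPar (theSem (parx M c x)) (csx M c x) (oSd (parx M c x) sd)
          (parx M c x).S).A (stx M c x) 0) :
    ∃ (D : RTM) (e : ℕ), D.Decides A (fun n => (2 : ℝ) ^ (e * sp n + e))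
      (fun n => e * sp n + e) := by
  obtain ⟨c1, hc1, hc2, hc3⟩ := space_bounds M c
  refine CT.assemble (p := prog) hok (B := Bx M c) (w := fun x => (parx M c x).q)
    (L := fun x => (parx M c x).L) (top := topx M c) (q0 := q0x M c) (thr := thrx M c)
    (NS := fun x => nSd (parx M c x)) (st := fun x j sd => statN (parx M c x) sd j)
    lfx_B ((lfx_q (M := M) (c := c)).congr (fun x a => by rw [parx_q]))
    ((lfx_L (M := M) (c := c)).congr (fun x a => by rw [parx_L])) lfx_top lfx_q0 lfx_thr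
    (lf_stat (LF.proj 1) (LF.proj 0)) lf_nSd
    (fun x => Nat.one_le_iff_ne_zero.2 (NeZero.ne _)) top_le (q0_le hM) (fun x => ?_) sp_nonneg
    (c1 := c1) hc1 hc2 hc3
  have hch := CT.chain_ok hM x (n_ge (M := M) (c := c) x)
  have hpr := CT.chain_prob hM x
  have hnpos : 0 < nSd (parx M c x) := by
    unfold nSd
    exact Nat.mul_pos (Nat.pow_pos (D_pos' x)) (Nat.pow_pos (Q_pos' x))
  have key : ∀ sd,
      GoodSd (parx M c x) (theSem (parx M c x)) (theTSem (parx M c x)) (csx M c x) sd →
      CT.Restores (CT.envS (Bx M c) (fun x => (parx M c x).q) (fun x => (parx M c x).L)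
        (fun x j sd => statN (parx M c x) sd j) x sd) prog (topx M c x) ∧
      (thrx M c x < CT.val (CT.envS (Bx M c) (fun x => (parx M c x).q)
        (fun x => (parx M c x).L) (fun x j sd => statN (parx M c x) sd j) x sd) prog
        (topx M c x) (q0x M c x) (fun _ => 0) ↔ x ∈ A) := by
    intro sd hsd
    obtain ⟨hr, hv⟩ := hgood x sd hsd
    refine ⟨hr, ?_⟩
    have hv' : CT.val (CT.envS (Bx M c) (fun x => (parx M c x).q)
        (fun x => (parx M c x).L) (fun x j sd => statN (parx M c x) sd j) x sd) prog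
        (topx M c x) (q0x M c x) (fun _ => 0) = (data (parx M c x).toPar (theSem (parx M c x))
          (csx M c x) (oSd (parx M c x) sd) (parx M c x).S).A (stx M c x) 0 := hv
    rw [hv']
    have hoffs : H974.Offs (parx M c x).toPar (oSd (parx M c x) sd) :=
      fun s i => (oSd_lt (D_pos' x) sd s i).le
    have hdec := H974.comp_decide (hnum x) (hsem x) (o := oSd (parx M c x) sd) hoffs
      (cs := csx M c x) hch.closed (hrun x) (hT x) (st := stx M c x) (acc := 0) (rej := 1)
      hch.start_lt (by have := hch.three_le; omega) (by have := hch.three_le; omega)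
      (by norm_num) hch.fix0 hch.fix1
    rw [hitR_eq, hitR_eq] at hdec
    unfold thrx
    rw [Nat.div_lt_iff_lt_mul (by norm_num)]
    by_cases hx : x ∈ A
    · refine iff_of_true ?_ hx
      have h1 : (2 : ℝ) / 3 ≤ CT.hitR (csx M c x) 0 (Sel.sT c x) (stx M c x) := by
        unfold csx stx
        rw [hpr]
        have h2 : ((2 / 3 : ℚ) : ℝ) ≤ ((M.probAt x true ((x.length + 2) ^ c) 0 M.init : ℚ) : ℝ) :=
          Rat.cast_le.2 ((hP x).1 hx)
        push_cast at h2
        exact h2
      have := hdec.1 h1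
      omega
    · refine iff_of_false ?_ hx
      have h1 : (2 : ℝ) / 3 ≤ CT.hitR (csx M c x) 1 (Sel.sT c x) (stx M c x) := by
        have h2 := hch.total
        have h3 : ((M.probAt x true ((x.length + 2) ^ c) 0 M.init : ℚ) : ℝ) ≤ ((1 / 3 : ℚ) : ℝ) :=
          Rat.cast_le.2 ((hP x).2 hx)
        push_cast at h3
        unfold csx stx
        rw [hpr] at h2
        linarith
      have := hdec.2 h1
      omega
  have h4 := hcard x
  have h5 := card_filter_add_card_filter_not (s := range (nSd (parx M c x)))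
    (fun sd => GoodSd (parx M c x) (theSem (parx M c x)) (theTSem (parx M c x)) (csx M c x) sd)
  rw [card_range] at h5
  have h6 : ((range (nSd (parx M c x))).filter fun sd =>
      GoodSd (parx M c x) (theSem (parx M c x)) (theTSem (parx M c x)) (csx M c x) sd).card ≤
      #{s ∈ range (nSd (parx M c x)) | CT.Restores (CT.envS (Bx M c)
        (fun x => (parx M c x).q) (fun x => (parx M c x).L)
        (fun x j sd => statN (parx M c x) sd j) x s) prog (topx M c x) ∧
      (thrx M c x < CT.val (CT.envS (Bx M c) (fun x => (parx M c x).q)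
        (fun x => (parx M c x).L) (fun x j sd => statN (parx M c x) sd j) x s) prog
        (topx M c x) (q0x M c x) (fun _ => 0) ↔ x ∈ A)} := by
    refine card_le_card (fun sd hsd => ?_)
    rw [mem_filter] at hsd ⊢
    exact ⟨hsd.1, key sd hsd.2⟩
  have h7 : nSd (parx M c x) <
      2 * ((range (nSd (parx M c x))).filter fun sd =>
      GoodSd (parx M c x) (theSem (parx M c x)) (theTSem (parx M c x)) (csx M c x) sd).card := by
    omega
  exact h7.trans_le (Nat.mul_le_mul_left 2 h6)

/-- Larger bounds. -/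
theorem decides_mono {D : RTM} {A : Set (List Bool)} {T S T' S' : ℕ → ℝ} (h : D.Decides A T S)
    (hT : ∀ n, T n ≤ T' n) (hS : ∀ n, S n ≤ S' n) : D.Decides A T' S' :=
  ⟨h.1, fun x ω => ⟨fun t ht => (h.2 x ω).1 t ((hT _).trans ht),
    fun t i => ((h.2 x ω).2 t i).trans (hS _)⟩⟩

/-- The bounds in the form of the final statement. -/
theorem decides_final {A : Set (List Bool)}
    (h : ∃ (D : RTM) (e : ℕ), D.Decides A (fun n => (2 : ℝ) ^ (e * sp n + e))
      (fun n => e * sp n + e)) :
    ∃ (D : RTM) (e : ℝ), D.Decides A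
      (fun n => (2 : ℝ) ^ (e * (Real.logb 2 (n + 2) ^ ((4 : ℝ) / 3) *
        Real.logb 2 (Real.logb 2 (n + 2) + 1) ^ ((2 : ℝ) / 3))))
      (fun n => e * (Real.logb 2 (n + 2) ^ ((4 : ℝ) / 3) *
        Real.logb 2 (Real.logb 2 (n + 2) + 1) ^ ((2 : ℝ) / 3))) := by
  obtain ⟨D, e, hD⟩ := h
  have key : ∀ n, (e : ℝ) * sp n + e ≤ (2 * e : ℝ) * sp n := by
    intro n
    have h1 := one_le_sp n
    have h2 : (0 : ℝ) ≤ e := Nat.cast_nonneg e
    nlinarith
  exact ⟨D, 2 * e, decides_mono hD
    (fun n => Real.rpow_le_rpow_of_exponent_le (by norm_num) (key n)) key⟩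

end Vale.Agent.P313.Z
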