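import Vale.Agent.P313.H296.Dig

/-!
More closure properties of the class `LF`.
-/

namespace Vale.Agent.P313

open Finset

variable {k : ℕ}

/-- Substitution for the first argument, the other arguments being kept. -/
theorem LF.substTail {F J : Fn (k + 1)} (hF : LF F) (hJ : LF J) :
    LF (fun x b => F x (Fin.cons (J x b) (Fin.tail b))) := by
  have h2 := LF.comp (k := k + 1) (m := k + 1) (f := F)
    (g := Fin.cons J (fun i => fun _ b => b i.succ)) hF (fun i => by
      refine Fin.cases ?_ (fun j => ?_) i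
      · simpa using hJ
      · simpa using LF.proj (k := k + 1) j.succ)
  refine h2.congr (fun x b => ?_)
  congr 1
  funext i
  refine Fin.cases ?_ (fun j => ?_) i
  · simp
  · simp [Fin.tail]

/-- Division by a power (the power may be large). -/
theorem LF.divPow {B f i : Fn k} (hB : LF B) (hf : LF f) (hi : LF i) :
    LF (fun x a => f x a / B x a ^ i x a) := by
  have h1 := LF.iterate (k := k) (f := fun x b => b 0 / B x (Fin.tail b)) (g := f) (n := i)
    ((LF.proj 0).div hB.weak) hf hi f hf.pb (fun x a j _ => by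
      simp only [Fin.tail_cons, Fin.cons_zero]
      rw [TS.div_iter]
      exact Nat.div_le_self _ _)
  refine h1.congr (fun x a => ?_)
  simp only [Fin.tail_cons, Fin.cons_zero]
  rw [TS.div_iter]

/-- Powers, cut off. -/
theorem LF.powMin {f n g : Fn k} (hf : LF f) (hn : LF n) (hg : LF g) :
    LF (fun x a => Min.min (f x a ^ n x a) (g x a + 1)) := by
  have h1 := LF.iterate (k := k)
    (f := fun x b => Min.min (b 0 * f x (Fin.tail b)) (g x (Fin.tail b) + 1))
    (g := fun x a => Min.min 1 (g x a + 1)) (n := n)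
    (LF.min ((LF.proj 0).mul hf.weak) hg.weak.succ) (LF.min (LF.const 1) hg.succ) hn
    (fun x a => g x a + 1) (hg.pb.add (PB.const 1)) (fun x a i _ => by
      simp only [Fin.tail_cons, Fin.cons_zero]
      rw [TS.pow_min_iter]; exact min_le_right _ _)
  refine h1.congr (fun x a => ?_)
  simp only [Fin.tail_cons, Fin.cons_zero]
  rw [TS.pow_min_iter]

theorem sqrt_eq_least (n : ℕ) : leastBelow (fun i => n < (i + 1) * (i + 1)) (n + 1) = Nat.sqrt n := by
  refine leastBelow_eq ?_ ?_ ?_
  · exact Nat.lt_succ_of_le (Nat.sqrt_le_self n)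
  · exact Nat.lt_succ_sqrt n
  · intro j hj h
    have h1 := Nat.sqrt_le n
    have h2 : (j + 1) * (j + 1) ≤ Nat.sqrt n * Nat.sqrt n := Nat.mul_le_mul hj hj
    omega

theorem LF.sqrt {f : Fn k} (hf : LF f) : LF (fun x a => Nat.sqrt (f x a)) := by
  have h1 : LFP (fun x b => f x (Fin.tail b) < (b 0 + 1) * (b 0 + 1) :
      List Bool → (Fin (k + 1) → ℕ) → Prop) :=
    LFP.lt hf.weak ((LF.proj 0).succ.mul (LF.proj 0).succ)
  refine (LF.least h1 hf.succ).congr (fun x a => ?_)
  simp only [Fin.tail_cons, Fin.cons_zero]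
  exact sqrt_eq_least _

theorem LF.unpair1 {f : Fn k} (hf : LF f) : LF (fun x a => (Nat.unpair (f x a)).1) := by
  have h1 : LF (fun x a => if f x a - Nat.sqrt (f x a) * Nat.sqrt (f x a) < Nat.sqrt (f x a)
      then f x a - Nat.sqrt (f x a) * Nat.sqrt (f x a) else Nat.sqrt (f x a)) :=
    LF.ite (LFP.lt (hf.sub (hf.sqrt.mul hf.sqrt)) hf.sqrt) (hf.sub (hf.sqrt.mul hf.sqrt)) hf.sqrt
  refine h1.congr (fun x a => ?_)
  unfold Nat.unpair
  simp only
  split_ifs <;> rfl

theorem LF.unpair2 {f : Fn k} (hf : LF f) : LF (fun x a => (Nat.unpair (f x a)).2) := by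
  have h1 : LF (fun x a => if f x a - Nat.sqrt (f x a) * Nat.sqrt (f x a) < Nat.sqrt (f x a)
      then Nat.sqrt (f x a)
      else f x a - Nat.sqrt (f x a) * Nat.sqrt (f x a) - Nat.sqrt (f x a)) :=
    LF.ite (LFP.lt (hf.sub (hf.sqrt.mul hf.sqrt)) hf.sqrt) hf.sqrt
      ((hf.sub (hf.sqrt.mul hf.sqrt)).sub hf.sqrt)
  refine h1.congr (fun x a => ?_)
  unfold Nat.unpair
  simp only
  split_ifs <;> rfl

/-- Tests of the input symbol. -/
theorem LFP.symT {f : Fn k} (t : InSym → Bool) (h : LF f) :
    LFP (fun x a => t (inSym x (f x a)) = true) := by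
  refine (LFP.eq (LF.sym t h) (LF.const 1)).congr (fun x a => ?_)
  cases t (inSym x (f x a)) <;> simp

namespace CT

theorem lf_fld {P S : Fn k} (hP : LF P) (hS : LF S) (i : ℕ) :
    LF (fun x a => fld (P x a) (S x a) i) := by
  unfold fld
  exact (hS.div (hP.powConst i)).mod hP

theorem lf_updN {P S v : Fn k} (hP : LF P) (hS : LF S) (i : ℕ) (hv : LF v) :
    LF (fun x a => updN (P x a) (S x a) i (v x a)) := by
  unfold updN
  exact (hS.sub ((lf_fld hP hS i).mul (hP.powConst i))).add (hv.mul (hP.powConst i))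

/-- Case distinction on an instruction. -/
def disp (code : List LI) (pc : ℕ) (F : LI → ℕ) (D : ℕ) : ℕ :=
  match code[pc]? with
  | none => D
  | some I => F I

theorem disp_none {code : List LI} {pc : ℕ} (h : code[pc]? = none) (F : LI → ℕ) (D : ℕ) :
    disp code pc F D = D := by
  unfold disp; rw [h]

theorem disp_some {code : List LI} {pc : ℕ} {I : LI} (h : code[pc]? = some I) (F : LI → ℕ)
    (D : ℕ) : disp code pc F D = F I := by
  unfold disp; rw [h]

theorem lf_disp (code : List LI) {pc D : Fn k} {F : LI → Fn k} (hpc : LF pc)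
    (hF : ∀ I, LF (F I)) (hD : LF D) :
    LF (fun x a => disp code (pc x a) (fun I => F I x a) (D x a)) := by
  induction code generalizing pc with
  | nil =>
    refine hD.congr (fun x a => ?_)
    simp [disp]
  | cons I code ih =>
    have h1 := ih (hpc.sub (LF.const 1))
    refine (LF.ite (LFP.eq hpc (LF.const 0)) (hF I) h1).congr (fun x a => ?_)
    cases h : pc x a with
    | zero => simp [disp]
    | succ n => simp [disp]

end CT

end Vale.Agent.P313
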