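import Vale.Agent.P313.H296.Engine

/-!
Assembly: a program whose answers, for most seeds, tell membership in a language gives a
deterministic machine.
-/

namespace Vale.Agent.P313.CT

open Finset

/-- The environment with static digits depending on a seed. -/
def envS (B w L : List Bool → ℕ) (st : List Bool → ℕ → ℕ → ℕ) (x : List Bool) (s : ℕ) : Env :=
  ⟨x, B x, w x, L x, fun j => st x j s⟩

theorem log_mul_le (a b : ℕ) : Nat.log 2 (a * b) ≤ (Nat.log 2 a + 1) + Nat.log 2 b := by
  rcases Nat.eq_zero_or_pos (a * b) with h | h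
  · rw [h]; simp
  · have ha : a < 2 ^ (Nat.log 2 a + 1) := Nat.lt_pow_succ_log_self (by norm_num) _
    have hb : b < 2 ^ (Nat.log 2 b + 1) := Nat.lt_pow_succ_log_self (by norm_num) _
    have h1 : a * b < 2 ^ ((Nat.log 2 a + 1) + Nat.log 2 b + 1) := by
      rw [add_assoc, pow_add]
      exact Nat.mul_lt_mul'' ha hb
    exact Nat.le_of_lt_succ (Nat.log_lt_of_lt_pow (by omega) h1)

theorem log_pow_le (a c : ℕ) : Nat.log 2 (a ^ c) ≤ c * (Nat.log 2 a + 1) := by
  have ha : a < 2 ^ (Nat.log 2 a + 1) := Nat.lt_pow_succ_log_self (by norm_num) _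
  have h1 : a ^ c ≤ 2 ^ (c * (Nat.log 2 a + 1)) := by
    calc a ^ c ≤ (2 ^ (Nat.log 2 a + 1)) ^ c := Nat.pow_le_pow_left ha.le c
      _ = 2 ^ (c * (Nat.log 2 a + 1)) := by rw [← pow_mul, mul_comm]
  calc Nat.log 2 (a ^ c) ≤ Nat.log 2 (2 ^ (c * (Nat.log 2 a + 1))) := Nat.log_mono_right h1
    _ = c * (Nat.log 2 a + 1) := Nat.log_pow (by norm_num) _

theorem min_mul_min_le {a b N : ℕ} (ha : 1 ≤ a) (hb : 1 ≤ b) :
    min a (N + 1) * min b (N + 1) ≤ N ↔ a * b ≤ N := by
  constructor
  · intro h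
    have h1 : min a (N + 1) ≤ N :=
      (Nat.le_mul_of_pos_right _ (by omega : 0 < min b (N + 1))).trans h
    have h2 : min b (N + 1) ≤ N :=
      (Nat.le_mul_of_pos_left _ (by omega : 0 < min a (N + 1))).trans h
    have h3 : min a (N + 1) = a := by omega
    have h4 : min b (N + 1) = b := by omega
    rwa [h3, h4] at h
  · intro h
    exact (Nat.mul_le_mul (min_le_left _ _) (min_le_left _ _)).trans h

/-- A function in `LF` and a search for the padding decide a language in space `O(S)`. -/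
theorem pad_decides_real {F g : P313.Fn 1} (hF : P313.LF F) (hg : P313.LF g)
    {A : Set (List Bool)} {S : ℕ → ℝ} (hS0 : ∀ n, 0 ≤ S n) {c : ℕ}
    (hA : ∀ x : List Bool, ∃ N : ℕ, (∀ m < N, g x (fun _ => m) = 0) ∧ g x (fun _ => N) ≠ 0 ∧
      (Nat.log 2 (x.length + N + 2) : ℝ) ≤ c * S x.length + c ∧
      (F x (fun _ => N) ≠ 0 ↔ x ∈ A)) :
    ∃ (D : RTM) (e : ℕ), D.Decides A (fun n => (2 : ℝ) ^ (e * S n + e))
      (fun n => e * S n + e) := by
  obtain ⟨D, e, hD, h⟩ := TS.pad_machine hF hg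
  refine ⟨D, e * (c + 1) + e * (c + 1), hD, fun x ω => ?_⟩
  obtain ⟨N, h1, h2, h3, h4⟩ := hA x
  obtain ⟨h5, h6⟩ := h x N h1 h2 ω
  have hS := hS0 x.length
  have hlt : x.length + N + 2 < 2 ^ (Nat.log 2 (x.length + N + 2) + 1) :=
    Nat.lt_pow_succ_log_self (by norm_num) _
  have he : (0 : ℝ) ≤ e := Nat.cast_nonneg _
  have hc : (0 : ℝ) ≤ c := Nat.cast_nonneg _
  have hec : (0 : ℝ) ≤ e * c := mul_nonneg he hc
  have hecS : (0 : ℝ) ≤ e * c * S x.length := mul_nonneg hec hS
  have heS : (0 : ℝ) ≤ e * S x.length := mul_nonneg he hS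
  have hlog : (0 : ℝ) ≤ (Nat.log 2 (x.length + N + 2) : ℝ) := Nat.cast_nonneg _
  have h10 : (e : ℝ) * (Nat.log 2 (x.length + N + 2) + 1) ≤
      ((e * (c + 1) + e * (c + 1) : ℕ) : ℝ) * S x.length + ((e * (c + 1) + e * (c + 1) : ℕ) : ℝ) := by
    push_cast
    have := mul_le_mul_of_nonneg_left h3 he
    nlinarith
  refine ⟨fun t ht => ?_, fun t i => ?_⟩
  · have ht' : (x.length + N + 2) ^ e ≤ t := by
      have h7 : ((x.length + N + 2 : ℕ) : ℝ) ^ e ≤ (t : ℝ) := by
        refine le_trans ?_ ht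
        calc ((x.length + N + 2 : ℕ) : ℝ) ^ e
            ≤ ((2 : ℝ) ^ (Nat.log 2 (x.length + N + 2) + 1)) ^ e := by
              refine pow_le_pow_left₀ (Nat.cast_nonneg _) ?_ e
              exact_mod_cast hlt.le
          _ = (2 : ℝ) ^ ((e : ℝ) * (Nat.log 2 (x.length + N + 2) + 1)) := by
              rw [← pow_mul, ← Real.rpow_natCast]
              congr 1
              push_cast
              ring
          _ ≤ _ := Real.rpow_le_rpow_of_exponent_le (by norm_num) h10
      exact_mod_cast h7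
    rw [h5 t ht']
    constructor
    · intro hx
      simp [h4.2 hx]
    · intro hx
      have : ¬ F x (fun _ => N) ≠ 0 := fun hF' => hx (h4.1 hF')
      simp [this]
  · have h9 : (((D.run x ω t).work i).cells : ℝ) ≤
        ((e * Nat.log 2 (x.length + N + 2) + e : ℕ) : ℝ) := by
      exact_mod_cast h6 t i
    refine h9.trans (le_trans (le_of_eq ?_) h10)
    push_cast
    ring

theorem ind_ne_zero {q : Prop} : ind q ≠ 0 ↔ q := by
  by_cases h : q
  · simp [h, ind_true]
  · simp [h, ind_false]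

open Classical in
/-- ASSEMBLY. `B`, `w`, `L` are the parameters of the environment, `st x j s` is static digit `j`
for seed `s`, `NS x` is the number of seeds. For more than half of the seeds the program restores
the tape and the value of the top level at the query `q0 x` is larger than `thr x` if and only if
`x` is in `A`. -/
theorem assemble {A : Set (List Bool)} {p : CP} (hp : p.Ok)
    {B w L top q0 thr NS : List Bool → ℕ} {st : List Bool → ℕ → ℕ → ℕ}
    (hB : P313.LF (fun x _ => B x : P313.Fn 0)) (hw : P313.LF (fun x _ => w x : P313.Fn 0))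
    (hL : P313.LF (fun x _ => L x : P313.Fn 0)) (htop : P313.LF (fun x _ => top x : P313.Fn 0))
    (hq0 : P313.LF (fun x _ => q0 x : P313.Fn 0)) (hthr : P313.LF (fun x _ => thr x : P313.Fn 0))
    (hst : P313.LF (fun x a => st x (a 0) (a 1) : P313.Fn 2))
    (hNS : P313.LF (fun x a => min (NS x) (a 0 + 1) : P313.Fn 1))
    (h1w : ∀ x, 1 ≤ w x) (htopB : ∀ x, top x ≤ B x) (hq0B : ∀ x, q0 x ≤ B x)
    (hA : ∀ x, NS x < 2 * #{s ∈ range (NS x) | Restores (envS B w L st x s) p (top x) ∧
      (thr x < val (envS B w L st x s) p (top x) (q0 x) (fun _ => 0) ↔ x ∈ A)})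
    {S : ℕ → ℝ} (hS0 : ∀ n, 0 ≤ S n) {c1 : ℕ}
    (hS1 : ∀ x, (Nat.log 2 (NS x) : ℝ) ≤ c1 * S x.length + c1)
    (hS2 : ∀ x, ((L x * (Nat.log 2 (w x) + 1) : ℕ) : ℝ) ≤ c1 * S x.length + c1)
    (hS3 : ∀ x, (((top x + 1) * (Nat.log 2 (x.length + B x + 2) + 1) : ℕ) : ℝ) ≤
      c1 * S x.length + c1) :
    ∃ (D : RTM) (c : ℕ), D.Decides A (fun n => (2 : ℝ) ^ (c * S n + c))
      (fun n => c * S n + c) := by
  obtain ⟨c, heng⟩ := engine p hp
  let e : EnvC 2 := ⟨fun x _ => B x, fun x _ => w x, fun x _ => L x, fun x b => st x (b 0) (b 1)⟩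
  have he : e.Ok := by
    refine ⟨hB.weak.weak, hw.weak.weak, hL.weak.weak, ?_⟩
    have h2 := LF.comp (k := 3) (m := 2) (f := fun x a => st x (a 0) (a 1))
      (g := ![fun _ b => b 0, fun _ b => b 1]) hst (fun i => by
        refine Fin.cases ?_ (fun j => ?_) i
        · exact LF.proj (k := 3) 0
        · refine Fin.cases ?_ (fun j => ?_) j
          · exact LF.proj (k := 3) 1
          · exact j.elim0)
    exact h2
  obtain ⟨G, hG, -, hval⟩ := heng 2 e (fun x _ => top x) (fun x _ => q0 x) (fun _ a => a 1) he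
    htop.weak.weak hq0.weak.weak (LF.proj 1)
  let F : P313.Fn 1 := fun x a => ind (min (NS x) (a 0 + 1) <
    2 * ∑ s ∈ range (min (NS x) (a 0 + 1)), ind (thr x < G x (Fin.cons s a)))
  have hthr2 : P313.LF (fun x _ => thr x : P313.Fn 2) := hthr.weak.weak
  have hsum : P313.LF (fun x a =>
      ∑ s ∈ range (min (NS x) (a 0 + 1)), ind (thr x < G x (Fin.cons s a)) : P313.Fn 1) :=
    LF.sum (k := 1) (f := fun x b => ind (thr x < G x b)) (LFP.lt hthr2 hG) hNS
  have hF : P313.LF F := LFP.lt hNS ((LF.const 2).mul hsum)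
  let R : List Bool → ℕ := fun x => x.length + B x + 2
  have hR1 : P313.LF (fun x _ => R x : P313.Fn 1) := (LF.len.add hB.weak).add (LF.const 2)
  have hw1 : P313.LF (fun x _ => w x : P313.Fn 1) := hw.weak
  have hL1 : P313.LF (fun x _ => L x : P313.Fn 1) := hL.weak
  have htop1 : P313.LF (fun x _ => top x : P313.Fn 1) := htop.weak
  let g : P313.Fn 1 := fun x a => ind (min (NS x) (a 0 + 1) ≤ a 0 ∧
    min (w x ^ L x) (a 0 + 1) * min (R x ^ (c * (top x + 1))) (a 0 + 1) ≤ a 0)
  have hg : P313.LF g := by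
    refine LFP.and (LFP.le hNS (LF.proj 0)) (LFP.le (LF.mul ?_ ?_) (LF.proj 0))
    · exact LF.powMin hw1 hL1 (LF.proj 0)
    · exact LF.powMin hR1 ((LF.const c).mul htop1.succ) (LF.proj 0)
  have hR2 : ∀ x, 2 ≤ R x := fun x => by simp only [R]; omega
  have hgiff : ∀ x m, g x (fun _ => m) ≠ 0 ↔
      max (NS x) (w x ^ L x * R x ^ (c * (top x + 1))) ≤ m := by
    intro x m
    simp only [g]
    rw [ind_ne_zero, min_mul_min_le (Nat.one_le_pow _ _ (h1w x))
      (Nat.one_le_pow _ _ (by have := hR2 x; omega))]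
    omega
  refine pad_decides_real hF hg hS0 (c := (3 + c) * c1 + 3) (fun x => ?_)
  set N := max (NS x) (w x ^ L x * R x ^ (c * (top x + 1))) with hN
  refine ⟨N, fun m hm => ?_, (hgiff x N).2 le_rfl, ?_, ?_⟩
  · by_contra h
    have := (hgiff x m).1 h
    omega
  · have hN1 : 1 ≤ N := by
      have h2 : 1 ≤ w x ^ L x * R x ^ (c * (top x + 1)) :=
        Nat.mul_pos (Nat.pow_pos (h1w x)) (Nat.pow_pos (by have := hR2 x; omega))
      omega
    have h3 : x.length + N + 2 ≤ 2 * (R x * N) := by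
      have h4 : x.length + 2 ≤ R x := by simp only [R]; omega
      have h5 : R x ≤ R x * N := Nat.le_mul_of_pos_right _ hN1
      have h6 : N ≤ R x * N := Nat.le_mul_of_pos_left _ (by have := hR2 x; omega)
      omega
    have h4 : Nat.log 2 (x.length + N + 2) ≤ 1 + 1 + (Nat.log 2 (R x) + 1 + Nat.log 2 N) := by
      refine (Nat.log_mono_right h3).trans ((log_mul_le _ _).trans ?_)
      have h5 : Nat.log 2 2 = 1 := by
        have := Nat.log_pow (b := 2) (by norm_num) 1
        simpa using this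
      rw [h5]
      exact Nat.add_le_add_left (log_mul_le _ _) _
    have h5 : Nat.log 2 N ≤ Nat.log 2 (NS x) + (L x * (Nat.log 2 (w x) + 1) + 1 +
        c * (top x + 1) * (Nat.log 2 (R x) + 1)) := by
      have h6 : Nat.log 2 (w x ^ L x * R x ^ (c * (top x + 1))) ≤
          L x * (Nat.log 2 (w x) + 1) + 1 + c * (top x + 1) * (Nat.log 2 (R x) + 1) :=
        (log_mul_le _ _).trans (Nat.add_le_add (Nat.add_le_add_right (log_pow_le _ _) 1)
          (log_pow_le _ _))
      rcases le_total (NS x) (w x ^ L x * R x ^ (c * (top x + 1))) with h7 | h7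
      · rw [hN, max_eq_right h7]
        exact h6.trans (Nat.le_add_left _ _)
      · rw [hN, max_eq_left h7]
        exact Nat.le_add_right _ _
    have h6 : Nat.log 2 (R x) + 1 ≤ (top x + 1) * (Nat.log 2 (R x) + 1) :=
      Nat.le_mul_of_pos_left _ (by omega)
    have h7 : Nat.log 2 (x.length + N + 2) ≤ Nat.log 2 (NS x) + L x * (Nat.log 2 (w x) + 1) +
        (1 + c) * ((top x + 1) * (Nat.log 2 (R x) + 1)) + 3 := by
      have h8 : c * (top x + 1) * (Nat.log 2 (R x) + 1) =
        c * ((top x + 1) * (Nat.log 2 (R x) + 1)) := by ring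
      have h9 : (1 + c) * ((top x + 1) * (Nat.log 2 (R x) + 1)) =
        (top x + 1) * (Nat.log 2 (R x) + 1) + c * ((top x + 1) * (Nat.log 2 (R x) + 1)) := by
        ring
      rw [h9]
      rw [h8] at h5
      omega
    have h8 : (Nat.log 2 (x.length + N + 2) : ℝ) ≤ (Nat.log 2 (NS x) : ℝ) +
        ((L x * (Nat.log 2 (w x) + 1) : ℕ) : ℝ) +
        (1 + c) * (((top x + 1) * (Nat.log 2 (R x) + 1) : ℕ) : ℝ) + 3 := by
      exact_mod_cast h7
    have h9 := hS1 x
    have h10 := hS2 x
    have h11 : (((top x + 1) * (Nat.log 2 (R x) + 1) : ℕ) : ℝ) ≤ c1 * S x.length + c1 := hS3 x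
    have hc : (0 : ℝ) ≤ 1 + c := by positivity
    have h12 := mul_le_mul_of_nonneg_left h11 hc
    have h13 := hS0 x.length
    push_cast
    nlinarith
  · have hNSN : NS x ≤ N := le_max_left _ _
    have hWN : w x ^ L x * R x ^ (c * (top x + 1)) ≤ N := le_max_right _ _
    have hmin : min (NS x) (N + 1) = NS x := min_eq_left (by omega)
    simp only [F]
    rw [ind_ne_zero, hmin]
    have hsum : ∑ s ∈ range (NS x), ind (thr x < G x (Fin.cons s fun _ => N)) =
        #{s ∈ range (NS x) | thr x < G x (Fin.cons s fun _ => N)} := by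
      rw [card_filter]
      exact sum_congr rfl (fun s _ => ind_eq_ite _)
    rw [hsum]
    have hgood : ∀ s, (Restores (envS B w L st x s) p (top x) ∧
        (thr x < val (envS B w L st x s) p (top x) (q0 x) (fun _ => 0) ↔ x ∈ A)) →
        (thr x < G x (Fin.cons s fun _ => N) ↔ x ∈ A) := by
      intro s hs
      have := hval x (Fin.cons s fun _ => N) (h1w x) (htopB x) (hq0B x) hWN hs.1
      rw [this]
      exact hs.2
    have hcard := hA x
    by_cases hx : x ∈ A
    · refine iff_of_true ?_ hx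
      refine hcard.trans_le (Nat.mul_le_mul_left 2 (card_le_card (fun s hs => ?_)))
      rw [mem_filter] at hs ⊢
      exact ⟨hs.1, (hgood s hs.2).2 hx⟩
    · refine iff_of_false (fun h => ?_) hx
      have hdis : Disjoint {s ∈ range (NS x) | thr x < G x (Fin.cons s fun _ => N)}
          {s ∈ range (NS x) | Restores (envS B w L st x s) p (top x) ∧
            (thr x < val (envS B w L st x s) p (top x) (q0 x) (fun _ => 0) ↔ x ∈ A)} := by
        rw [disjoint_left]
        intro s hs hs'
        rw [mem_filter] at hs hs'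
        exact hx ((hgood s hs'.2).1 hs.2)
      have h14 := card_le_card (union_subset
        (filter_subset (fun s => thr x < G x (Fin.cons s fun _ => N)) (range (NS x)))
        (filter_subset (fun s => Restores (envS B w L st x s) p (top x) ∧
          (thr x < val (envS B w L st x s) p (top x) (q0 x) (fun _ => 0) ↔ x ∈ A))
          (range (NS x))))
      rw [card_union_of_disjoint hdis, card_range] at h14
      omega

end Vale.Agent.P313.CT
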