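import Vale.Agent.P313.H899.Master
import Vale.Agent.P313.H126.Count
import Vale.Agent.P313.H296.Shell

/-!
Static digits and the number of seeds as functions in `LF`.
-/

namespace Vale.Agent.P313.CT

open Finset Sel BP H126 H899

variable {k : ℕ}

/-! ### Tables -/

/-- Entry `j` of a list of functions of the input word. -/
def tab : List (List Bool → ℕ) → List Bool → ℕ → ℕ
  | [], _, _ => 0
  | f :: fs, x, j => if j = 0 then f x else tab fs x (j - 1)

theorem lf_tab {fs : List (List Bool → ℕ)} (h : ∀ f ∈ fs, LFx f) {j : P313.Fn k}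
    (hj : P313.LF j) : P313.LF (fun x a => tab fs x (j x a)) := by
  induction fs generalizing j with
  | nil => exact (LF.const 0).congr (fun x a => rfl)
  | cons f fs ih =>
    exact LF.ite (LFP.eq hj (LF.const 0)) ((h f List.mem_cons_self).lf k)
      (ih (fun g hg => h g (List.mem_cons_of_mem _ hg)) (hj.sub (LF.const 1)))

/-! ### Products, cut off -/

theorem min_mul_eq {a b N : ℕ} (ha : 1 ≤ a) (hb : 1 ≤ b) :
    min (a * b) (N + 1) =
      if min a (N + 1) * min b (N + 1) ≤ N then min a (N + 1) * min b (N + 1) else N + 1 := by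
  split_ifs with h
  · have h1 : min a (N + 1) ≤ N :=
      (Nat.le_mul_of_pos_right _ (by omega : 0 < min b (N + 1))).trans h
    have h2 : min b (N + 1) ≤ N :=
      (Nat.le_mul_of_pos_left _ (by omega : 0 < min a (N + 1))).trans h
    have h3 : min a (N + 1) = a := by omega
    have h4 : min b (N + 1) = b := by omega
    rw [h3, h4] at h ⊢
    omega
  · have : ¬ a * b ≤ N := fun h' => h ((min_mul_min_le ha hb).2 h')
    omega

/-- Products of functions which are large, cut off. -/
theorem lf_mulMin {A B : List Bool → (Fin k → ℕ) → ℕ} {g : P313.Fn k} (hg : P313.LF g)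
    (h1 : ∀ x a, 1 ≤ A x a) (h2 : ∀ x a, 1 ≤ B x a)
    (hA : P313.LF (fun x a => min (A x a) (g x a + 1)))
    (hB : P313.LF (fun x a => min (B x a) (g x a + 1))) :
    P313.LF (fun x a => min (A x a * B x a) (g x a + 1)) := by
  refine (LF.ite (LFP.le (hA.mul hB) hg) (hA.mul hB) hg.succ).congr (fun x a => ?_)
  exact (min_mul_eq (h1 x a) (h2 x a)).symm

/-! ### Parameters -/

/-- All parameters are computable. -/
structure LFPar (p : List Bool → Par2) : Prop where
  n : LFx (fun x => (p x).n)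
  q : LFx (fun x => (p x).q)
  b : LFx (fun x => (p x).b)
  r : LFx (fun x => (p x).r)
  rk : LFx (fun x => (p x).rk)
  K : LFx (fun x => (p x).K)
  Th1 : LFx (fun x => (p x).Th1)
  D : LFx (fun x => (p x).D)
  JF : LFx (fun x => (p x).JF)
  JN : LFx (fun x => (p x).JN)
  Th : LFx (fun x => (p x).Th)
  cmax : LFx (fun x => (p x).cmax)
  nd : LFx (fun x => (p x).nd)
  Lam : LFx (fun x => (p x).Lam)
  Q : LFx (fun x => (p x).Q)
  DC : LFx (fun x => (p x).DC)
  c0 : LFx (fun x => (p x).c0)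
  lw : LFx (fun x => (p x).lw)
  Om : LFx (fun x => (p x).Om)
  S : LFx (fun x => (p x).S)
  D_pos : ∀ x, 0 < (p x).D
  Q_pos : ∀ x, 0 < (p x).Q

variable {p : List Bool → Par2}

theorem LFPar.m (h : LFPar p) : LFx (fun x => (p x).m) := by
  unfold Par2.m nph
  exact ((LF.const 17).add ((LF.const 2).mul h.JF)).add ((LF.const 2).mul h.JN)

theorem LFPar.L (h : LFPar p) : LFx (fun x => (p x).L) := by
  unfold Par2.L lab
  exact (LF.const 310).mul h.r

/-- Static digits `0, ..., 20`. -/
def parTab (p : List Bool → Par2) : List (List Bool → ℕ) :=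
  [fun x => (p x).n, fun x => (p x).q, fun x => (p x).b, fun x => (p x).r, fun x => (p x).rk,
    fun x => (p x).K, fun x => (p x).Th1, fun x => (p x).D, fun x => (p x).JF, fun x => (p x).JN,
    fun x => (p x).Th, fun x => (p x).cmax, fun x => (p x).nd, fun x => (p x).Lam,
    fun x => (p x).Q, fun x => (p x).DC, fun x => (p x).c0, fun x => (p x).lw,
    fun x => (p x).Om, fun x => (p x).m, fun x => (p x).S]

theorem LFPar.parTab (h : LFPar p) : ∀ f ∈ parTab p, LFx f := by
  intro f hf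
  simp only [CT.parTab, List.mem_cons, List.not_mem_nil, or_false] at hf
  rcases hf with rfl | rfl | rfl | rfl | rfl | rfl | rfl | rfl | rfl | rfl | rfl | rfl | rfl |
    rfl | rfl | rfl | rfl | rfl | rfl | rfl | rfl
  exacts [h.n, h.q, h.b, h.r, h.rk, h.K, h.Th1, h.D, h.JF, h.JN, h.Th, h.cmax, h.nd, h.Lam, h.Q,
    h.DC, h.c0, h.lw, h.Om, h.m, h.S]

/-- All static digits: digit `j` for the seed `s`. -/
def stD (p : List Bool → Par2) (x : List Bool) (j s : ℕ) : ℕ :=
  if j < 64 then tab (parTab p) x j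
  else if j < 64 + 3 * (p x).S then s / (p x).D ^ (j - 64) % (p x).D
  else s / (p x).D ^ (3 * (p x).S) / (p x).Q ^ (j - (64 + 3 * (p x).S)) % (p x).Q

theorem lf_stD (h : LFPar p) : P313.LF (fun x a => stD p x (a 0) (a 1) : P313.Fn 2) := by
  have hS : P313.LF (fun x _ => 64 + 3 * (p x).S : P313.Fn 2) :=
    (LF.const 64).add ((LF.const 3).mul (h.S.lf 2))
  have hS3 : P313.LF (fun x _ => 3 * (p x).S : P313.Fn 2) := (LF.const 3).mul (h.S.lf 2)
  unfold stD
  refine LF.ite (LFP.lt (LF.proj 0) (LF.const 64)) (lf_tab h.parTab (LF.proj 0))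
    (LF.ite (LFP.lt (LF.proj 0) hS) ?_ ?_)
  · exact (LF.divPow (h.D.lf 2) (LF.proj 1) ((LF.proj 0).sub (LF.const 64))).mod (h.D.lf 2)
  · exact (LF.divPow (h.Q.lf 2) (LF.divPow (h.D.lf 2) (LF.proj 1) hS3)
      ((LF.proj 0).sub hS)).mod (h.Q.lf 2)

/-- The number of seeds is computable. -/
theorem lf_nSd (h : LFPar p) : P313.LF (fun x a => min (nSd (p x)) (a 0 + 1) : P313.Fn 1) := by
  unfold nSd
  refine lf_mulMin (k := 1) (A := fun x _ => (p x).D ^ (3 * (p x).S))
    (B := fun x _ => (p x).Q ^ (2 * (p x).DC + 2 * (p x).lw)) (g := fun _ a => a 0) (LF.proj 0)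
    (fun x _ => Nat.one_le_pow _ _ (h.D_pos x)) (fun x _ => Nat.one_le_pow _ _ (h.Q_pos x)) ?_ ?_
  · exact LF.powMin (h.D.lf 1) ((LF.const 3).mul (h.S.lf 1)) (LF.proj 0)
  · exact LF.powMin (h.Q.lf 1) (((LF.const 2).mul (h.DC.lf 1)).add ((LF.const 2).mul (h.lw.lf 1)))
      (LF.proj 0)

theorem stD_off (x : List Bool) (sd : ℕ) {s i : ℕ} (hs : s < (p x).S) (hi : i < 3) :
    stD p x (stOff s i) sd = oSd (p x) sd s i := by
  unfold stD stOff oSd offN
  rw [if_neg (by omega), if_pos (by omega)]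
  have e : 64 + 3 * s + i - 64 = 3 * s + i := by omega
  rw [e]
  obtain ⟨m, hm⟩ : ∃ m, 3 * (p x).S = 3 * s + i + (m + 1) := ⟨3 * (p x).S - (3 * s + i) - 1, by omega⟩
  rw [hm, pow_add _ (3 * s + i), Nat.mod_mul_right_div_self, pow_succ']
  exact (Nat.mod_mul_right_mod _ _ _).symm

theorem stD_seed (x : List Bool) (sd i : ℕ) :
    stD p x (stW (p x).S + i) sd = wSd (p x) sd i := by
  unfold stD stW wSd
  rw [if_neg (by omega), if_neg (by omega), Nat.add_sub_cancel_left]

/-- The environment of `x` and the seed `sd` is the one of `Lay.lean`. -/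
theorem envOk {B : List Bool → ℕ} {x : List Bool} {sd : ℕ}
    (hB : ∀ f ∈ parTab p, f x ≤ B x) (hD : 0 < (p x).D) (hQ : 0 < (p x).Q)
    (S : Sem) (T : TSem) (cs : ℕ → Bool → ℕ) :
    (⟨p x, S, T, cs, oSd (p x) sd, wSd (p x) sd⟩ : Ctx).EnvOk
      (envS B (fun x => (p x).q) (fun x => (p x).L) (stD p) x sd) := by
  have hDB : (p x).D ≤ B x := hB (fun x => (p x).D) (by simp [parTab])
  have hQB : (p x).Q ≤ B x := hB (fun x => (p x).Q) (by simp [parTab])
  refine { s0 := rfl, s1 := rfl, s2 := rfl, s3 := rfl, s4 := rfl, s5 := rfl, s6 := rfl, s7 := rfl, s8 := rfl, s9 := rfl, s10 := rfl, s11 := rfl, s12 := rfl, s13 := rfl, s14 := rfl, s15 := rfl, s16 := rfl, s17 := rfl, s18 := rfl, s19 := rfl, s20 := rfl, off := fun s hs i hi => stD_off x sd hs hi, seed := fun i _ => stD_seed x sd i, stB := fun j _ => ?_, w := rfl, L := rfl }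
  show stD p x j sd ≤ B x
  unfold stD
  split_ifs with h1 h2
  · have key : ∀ (fs : List (List Bool → ℕ)), (∀ f ∈ fs, f x ≤ B x) → ∀ j, tab fs x j ≤ B x := by
      intro fs
      induction fs with
      | nil => intro _ j; exact Nat.zero_le _
      | cons f fs ih =>
        intro h j
        simp only [tab]
        split_ifs
        · exact h f List.mem_cons_self
        · exact ih (fun g hg => h g (List.mem_cons_of_mem _ hg)) _
    exact key _ hB j
  · exact (Nat.mod_lt _ hD).le.trans hDB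
  · exact (Nat.mod_lt _ hQ).le.trans hQB

end Vale.Agent.P313.CT
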